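import Vale.Agent.P011.Six.H183.QSig

/-!
Degree six: symmetric elements commuting with `t` and antisymmetric with respect to `j₁`, with the
signatures of one.
-/

open Module Matrix Filter Topology
open scoped ComplexOrder

set_option linter.unusedSectionVars false

namespace Vale.Agent.P011.Six.H183

open Vale.Agent.P011.Arith Vale.Agent.P011.Even Vale.Agent.P011.One Vale.Agent.P011.RP
open Vale.Agent.P011.W (HasNrd hasNrd_iff exists_maxfield hasNrd_norm)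
open Vale.Agent.P011.Tpl (Lor Sgd)

section mat

variable {A J X Y M : Matrix (Fin 6) (Fin 6) ℂ} {a b : ℝ}

/-- The matrix form of the projection. -/
def Fm (A J X Y : Matrix (Fin 6) (Fin 6) ℂ) (a b : ℝ) (Z : Matrix (Fin 6) (Fin 6) ℂ) :
    Matrix (Fin 6) (Fin 6) ℂ :=
  ((a : ℂ) * b) • Z + (b : ℂ) • (X * Z * X) - (a : ℂ) • ((A * Yᴴ * J) * Z * Y) +
    (A * Yᴴ * J) * X * Z * (Y * X)

theorem fm_target (j2 : J * A = 1) (hX : X * X = (a : ℂ) • 1) (hY : Y * Y = (b : ℂ) • 1)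
    (hXY : X * Y = -(Y * X)) (hXA : X * A = A * Xᴴ) (h1 : M * X = Xᴴ * M)
    (h2 : M * Y = -(Yᴴ * M)) (c : ℂ) :
    Fm A J X Y a b (c • (A * M)) = (c * (4 * a * b)) • (A * M) := by
  have e1 : X * (A * M) * X = (a : ℂ) • (A * M) := by
    calc X * (A * M) * X = (X * A) * M * X := by simp only [mul_assoc]
      _ = A * (Xᴴ * M) * X := by rw [hXA]; simp only [mul_assoc]
      _ = A * M * (X * X) := by rw [← h1]; simp only [mul_assoc]
      _ = _ := by rw [hX, mul_smul_comm, mul_one]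
  have e2 : (A * Yᴴ * J) * (A * M) = -(A * M * Y) := by
    calc (A * Yᴴ * J) * (A * M) = A * Yᴴ * (J * A) * M := by simp only [mul_assoc]
      _ = A * (Yᴴ * M) := by rw [j2, mul_one, mul_assoc]
      _ = -(A * (-(Yᴴ * M))) := by rw [mul_neg, neg_neg]
      _ = _ := by rw [← h2, mul_assoc]
  have e3 : (A * Yᴴ * J) * (A * M) * Y = -((b : ℂ) • (A * M)) := by
    rw [e2, neg_mul, mul_assoc, hY, mul_smul_comm, mul_one]
  have e4 : (A * Yᴴ * J) * X * (A * M) * (Y * X) = ((a : ℂ) * b) • (A * M) := by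
    calc (A * Yᴴ * J) * X * (A * M) * (Y * X) = (A * Yᴴ * J) * (X * A) * M * (Y * X) := by
          simp only [mul_assoc]
      _ = (A * Yᴴ * J) * A * (Xᴴ * M) * (Y * X) := by rw [hXA]; simp only [mul_assoc]
      _ = (A * Yᴴ * J) * (A * M) * (X * Y) * X := by rw [← h1]; simp only [mul_assoc]
      _ = -((A * Yᴴ * J) * (A * M) * Y * (X * X)) := by rw [hXY]; noncomm_ring
      _ = _ := by
        rw [e3, hX, mul_smul_comm, mul_one, smul_neg, neg_neg, smul_smul]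
  have f1 : X * (c • (A * M)) * X = c • ((a : ℂ) • (A * M)) := by
    rw [mul_smul_comm, smul_mul_assoc, e1]
  have f3 : (A * Yᴴ * J) * (c • (A * M)) * Y = -(c • ((b : ℂ) • (A * M))) := by
    rw [mul_smul_comm, smul_mul_assoc, e3, smul_neg]
  have f4 : (A * Yᴴ * J) * X * (c • (A * M)) * (Y * X) = c • (((a : ℂ) * b) • (A * M)) := by
    rw [mul_smul_comm, smul_mul_assoc, e4]
  rw [Fm, f1, f3, f4, smul_neg, sub_neg_eq_add]
  simp only [smul_smul, ← add_smul]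
  congr 1
  ring

theorem fm_cont (G : Matrix (Fin 6) (Fin 6) ℂ) :
    Continuous fun Z : Matrix (Fin 6) (Fin 6) ℂ =>
      Fm A J X Y a b (Z + A * Zᴴ * J) * A - G := by
  have h0 : Continuous fun Z : Matrix (Fin 6) (Fin 6) ℂ => A * Zᴴ * J :=
    (continuous_const.matrix_mul continuous_id.matrix_conjTranspose).matrix_mul continuous_const
  have h1 : Continuous fun Z : Matrix (Fin 6) (Fin 6) ℂ => Z + A * Zᴴ * J :=
    continuous_id.add h0
  have h2 : Continuous fun Z : Matrix (Fin 6) (Fin 6) ℂ => Fm A J X Y a b (Z + A * Zᴴ * J) := by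
    unfold Fm
    refine ((((h1.const_smul ((a : ℂ) * b)).add ?_).sub ?_).add ?_)
    · exact ((continuous_const.matrix_mul h1).matrix_mul continuous_const).const_smul (b : ℂ)
    · exact ((continuous_const.matrix_mul h1).matrix_mul continuous_const).const_smul (a : ℂ)
    · exact (continuous_const.matrix_mul h1).matrix_mul continuous_const
  exact (h2.matrix_mul continuous_const).sub continuous_const

end mat

variable {k K D : Type} [Field k] [NumberField k] [Field K] [NumberField K] [StarRing K]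
  [DivisionRing D] [StarRing D] [Algebra k K] [Algebra k D] [Algebra K D] [IsScalarTower k K D]
  {d : kˣ} {s : K} {a b : kˣ} {t j : D}

/-- The local situation at one real place. -/
theorem exists_loc (hS : Setting k K D d s) (h : Pr a b t j) (R : RData K D 6)
    (hL : ¬ Lor R.A) (hpos : ∀ φ : k →+* ℝ, φ d < 0 → 0 < φ a) {c₀ : D} (hc₀ : star c₀ = c₀)
    (hc0 : c₀ ≠ 0) (hct : c₀ * t = t * c₀) (hcj : star j * c₀ = -(c₀ * j)) {x : kˣ}
    (hx : HasNrd K 6 c₀ (algebraMap k K x)) (hxd : x ∈ NF d) :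
    ∃ U₀ : Matrix (Fin 6) (Fin 6) ℂ, ∀ᶠ Z in 𝓝 U₀, ∀ u : D, R.f u = Z →
      R.CongAt 1 (Pj a b t j (u + star u)) := by
  classical
  obtain ⟨φ, hφ, hφd⟩ := exists_phi hS R
  have ha := hpos φ hφd
  have hAd := (Matrix.isUnit_iff_isUnit_det _).mp R.unit
  obtain ⟨X, hX⟩ : ∃ X, X = R.f t := ⟨_, rfl⟩
  obtain ⟨Y, hY⟩ : ∃ Y, Y = R.f j := ⟨_, rfl⟩
  obtain ⟨A, hA⟩ : ∃ A, A = R.A := ⟨_, rfl⟩
  obtain ⟨J, hJ⟩ : ∃ J, J = A⁻¹ := ⟨_, rfl⟩
  rw [← hA] at hAd hL
  have hAs : Aᴴ = A := by rw [hA, R.hA]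
  have j1 : A * J = 1 := by rw [hJ, Matrix.mul_nonsing_inv _ hAd]
  have j2 : J * A = 1 := by rw [hJ, Matrix.nonsing_inv_mul _ hAd]
  have j3 : Jᴴ = J := by rw [hJ, Matrix.conjTranspose_nonsing_inv, hAs]
  have hst : ∀ z : D, R.f (star z) = A * (R.f z)ᴴ * J := by
    intro z
    have h := R.star_f z
    rw [← hA] at h
    rw [← h, mul_assoc, j1, mul_one]
  have hsc : ∀ c : k, R.f (algebraMap k D c) = (φ c : ℂ) • 1 := by
    intro c
    rw [IsScalarTower.algebraMap_apply k K D, R.hf, hφ, Matrix.scalar_apply,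
      ← Matrix.smul_one_eq_diagonal]
  have hXX : X * X = ((φ a : ℝ) : ℂ) • 1 := by rw [hX, ← map_mul, h.tt, hsc]
  have hYY : Y * Y = ((φ b : ℝ) : ℂ) • 1 := by rw [hY, ← map_mul, h.jj, hsc]
  have hXY : X * Y = -(Y * X) := by rw [hX, hY, ← map_mul, h.tj, map_neg, map_mul]
  have hXA : X * A = A * Xᴴ := by
    have h1 := R.star_f t
    rwa [h.st, ← hA, ← hX] at h1
  have hb0 : φ b ≠ 0 := (_root_.map_ne_zero φ).mpr b.ne_zero
  have hA' : IsUnit A := hA ▸ R.unit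
  have hJu : IsUnit J := ⟨⟨J, A, j2, j1⟩, rfl⟩
  -- the global form
  obtain ⟨M0, hM0⟩ : ∃ M0, M0 = J * R.f c₀ := ⟨_, rfl⟩
  have hC : R.f c₀ = A * M0 := by rw [hM0, ← mul_assoc, j1, one_mul]
  have hM0s : M0ᴴ = M0 := by
    have h1 := hst c₀
    rw [hc₀] at h1
    rw [hM0, Matrix.conjTranspose_mul, j3]
    conv_rhs => rw [h1]
    rw [← mul_assoc, ← mul_assoc, j2, one_mul]
  have hM0u : IsUnit M0 := by rw [hM0]; exact hJu.mul (f_unit R hc0)
  have hM0X : M0 * X = Xᴴ * M0 := by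
    have h1 : A * (M0 * X) = A * (Xᴴ * M0) := by
      rw [← mul_assoc, ← mul_assoc, ← hC, ← hXA, mul_assoc, ← hC, hX, ← map_mul, ← map_mul, hct]
    calc M0 * X = (J * A) * (M0 * X) := by rw [j2, one_mul]
      _ = (J * A) * (Xᴴ * M0) := by rw [mul_assoc, h1, mul_assoc]
      _ = _ := by rw [j2, one_mul]
  have hM0Y : M0 * Y = -(Yᴴ * M0) := by
    have h1 : A * (M0 * Y) = A * (-(Yᴴ * M0)) := by
      have e1 : A * (Yᴴ * M0) = R.f (star j * c₀) := by
        rw [map_mul, hst, ← hY, hC]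
        calc A * (Yᴴ * M0) = A * Yᴴ * (J * A) * M0 := by rw [j2, mul_one, mul_assoc]
          _ = _ := by simp only [mul_assoc]
      rw [mul_neg, e1, hcj, map_neg, neg_neg, ← mul_assoc, ← hC, hY, map_mul]
    calc M0 * Y = (J * A) * (M0 * Y) := by rw [j2, one_mul]
      _ = (J * A) * (-(Yᴴ * M0)) := by rw [mul_assoc, h1, mul_assoc]
      _ = _ := by rw [j2, one_mul]
  have hx0 : 0 < φ x := by
    obtain ⟨p, q, hpq⟩ := hxd
    have h1 : φ x = φ p ^ 2 - φ d * φ q ^ 2 := by rw [hpq, map_sub, map_mul, map_pow, map_pow]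
    have h2 : φ x ≠ 0 := (_root_.map_ne_zero φ).mpr x.ne_zero
    have h3 : 0 ≤ φ x := by
      rw [h1]
      nlinarith [sq_nonneg (φ p), sq_nonneg (φ q), mul_nonneg (neg_pos.mpr hφd).le (sq_nonneg (φ q))]
    exact lt_of_le_of_ne h3 h2.symm
  have hdet : A.det * M0.det = ((φ x : ℝ) : ℂ) := by
    rw [← Matrix.det_mul, ← hC, (hasNrd_iff.mp hx) ℂ R.s R.f R.hf, hφ]
  obtain ⟨q, hq⟩ : ∃ q, q = Real.sqrt (φ a) := ⟨_, rfl⟩
  have hqq : q * q = φ a := by rw [hq]; exact Real.mul_self_sqrt ha.le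
  have hq0 : 0 < q := by rw [hq]; exact Real.sqrt_pos.mpr ha
  obtain ⟨M, Q, hM, hMX, hMY, hQ, hQM⟩ := target_six hAs hA' hL hq0 hb0
    (by rw [hXX, ← hqq, Complex.ofReal_mul]) hYY hXY hM0s hM0u hM0X hM0Y hx0 hdet
  obtain ⟨G, hG⟩ : ∃ G, G = A * M * A := ⟨_, rfl⟩
  have hGs : G.IsHermitian := by
    rw [Matrix.IsHermitian, hG, Matrix.conjTranspose_mul, Matrix.conjTranspose_mul, hAs, hM,
      mul_assoc]
  have hcG : (A * Q) * (R.f 1 * A) * (A * Q)ᴴ = G := by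
    rw [map_one, one_mul, Matrix.conjTranspose_mul, hAs, hG, ← hQM]
    simp only [mul_assoc]
  have hGu : IsUnit G := by
    rw [← hcG, map_one, one_mul]
    exact ((hA'.mul hQ).mul hA').mul (hA'.mul hQ).star
  obtain ⟨η, hη, hnear⟩ := herm_near hGs hGu
  -- the target
  have hab0 : (8 * (φ a : ℂ) * (φ b : ℂ)) ≠ 0 := by
    refine mul_ne_zero (mul_ne_zero (by norm_num) ?_) ?_
    · exact_mod_cast ha.ne'
    · exact_mod_cast hb0
  obtain ⟨U, hU⟩ : ∃ U, U = (8 * (φ a : ℂ) * (φ b : ℂ))⁻¹ • (A * M) := ⟨_, rfl⟩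
  obtain ⟨Ψ, hΨ⟩ : ∃ Ψ : Matrix (Fin 6) (Fin 6) ℂ → Matrix (Fin 6) (Fin 6) ℂ, Ψ =
      fun Z => Fm A J X Y (φ a) (φ b) (Z + A * Zᴴ * J) * A - G := ⟨_, rfl⟩
  have hΨc : Continuous Ψ := by
    rw [hΨ]
    exact fm_cont G
  have hUU : U + A * Uᴴ * J = (2 * (8 * (φ a : ℂ) * (φ b : ℂ))⁻¹) • (A * M) := by
    have h1 : A * Uᴴ * J = U := by
      have h2 : star (8 * (φ a : ℂ) * (φ b : ℂ))⁻¹ = (8 * (φ a : ℂ) * (φ b : ℂ))⁻¹ := by
        rw [star_inv₀, star_mul', star_mul', star_ofNat]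
        congr 2
        · congr 1
          exact Complex.conj_ofReal _
        · exact Complex.conj_ofReal _
      rw [hU, Matrix.conjTranspose_smul, h2, Matrix.conjTranspose_mul, hM, hAs, mul_smul_comm,
        smul_mul_assoc]
      congr 1
      calc A * (M * A) * J = A * M * (A * J) := by simp only [mul_assoc]
        _ = _ := by rw [j1, mul_one]
    rw [h1, hU, ← two_smul ℂ ((8 * (φ a : ℂ) * (φ b : ℂ))⁻¹ • (A * M)), smul_smul]
  have hΨU : Ψ U = 0 := by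
    rw [hΨ]
    change Fm A J X Y (φ a) (φ b) (U + A * Uᴴ * J) * A - G = 0
    rw [hUU, fm_target j2 hXX hYY hXY hXA hMX hMY]
    have h1 : 2 * (8 * (φ a : ℂ) * (φ b : ℂ))⁻¹ * (4 * (φ a : ℂ) * (φ b : ℂ)) = 1 := by
      field_simp
      norm_num
    rw [h1, one_smul, hG, sub_self]
  refine ⟨U, ?_⟩
  have hev : ∀ᶠ Z in 𝓝 U, ∀ i l, ‖Ψ Z i l‖ < η := by
    have h1 : ∀ i l, ∀ᶠ Z in 𝓝 U, ‖Ψ Z i l‖ < η := by
      intro i l
      have h2 : Tendsto (fun Z => ‖Ψ Z i l‖) (𝓝 U) (𝓝 ‖Ψ U i l‖) :=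
        ((hΨc.matrix_elem i l).norm.tendsto U)
      rw [hΨU, Matrix.zero_apply, norm_zero] at h2
      exact h2.eventually (gt_mem_nhds hη)
    exact Filter.eventually_all.mpr fun i => Filter.eventually_all.mpr fun l => h1 i l
  filter_upwards [hev] with Z hZ u hu
  have hs : star (Pj a b t j (u + star u)) = Pj a b t j (u + star u) :=
    pj_star h (by rw [star_add, star_star, add_comm])
  have hfu : R.f (Pj a b t j (u + star u)) * R.A = G + Ψ Z := by
    rw [hΨ]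
    change _ = G + (Fm A J X Y (φ a) (φ b) (Z + A * Zᴴ * J) * A - G)
    rw [add_sub_cancel, ← hA]
    congr 1
    have hsm : ∀ (c : k) (v : D), R.f (algebraMap k D c * v) = ((φ c : ℝ) : ℂ) • R.f v := by
      intro c v
      rw [map_mul, hsc, smul_mul_assoc, one_mul]
    have g0 : R.f (u + star u) = Z + A * Zᴴ * J := by rw [map_add, hst u, hu]
    have g1 : R.f (t * (u + star u) * t) = X * (Z + A * Zᴴ * J) * X := by
      rw [map_mul, map_mul, g0, ← hX]
    have g2 : R.f (star j * (u + star u) * j) = (A * Yᴴ * J) * (Z + A * Zᴴ * J) * Y := by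
      rw [map_mul, map_mul, g0, hst j, ← hY]
    have g3 : R.f (star j * t * (u + star u) * (j * t)) =
        (A * Yᴴ * J) * X * (Z + A * Zᴴ * J) * (Y * X) := by
      rw [map_mul, map_mul, map_mul, map_mul R.f j t, g0, hst j, ← hY, ← hX]
    rw [Pj, Fm, map_add, map_sub, map_add, hsm, hsm, hsm, g0, g1, g2, g3, map_mul,
      Complex.ofReal_mul]
  have hΨs : (Ψ Z).IsHermitian := by
    have h1 : Ψ Z = R.f (Pj a b t j (u + star u)) * R.A - G := by
      rw [hfu, add_sub_cancel_left]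
    rw [h1]
    exact Matrix.IsHermitian.sub (f_herm R hs) hGs
  obtain ⟨P, hP, hP'⟩ := hnear (Ψ Z) hΨs hZ
  refine ⟨P * (A * Q), hP.mul (hA'.mul hQ), ?_⟩
  rw [hfu, ← hP', ← hcG, Matrix.conjTranspose_mul P, hA]
  simp only [mul_assoc]

/-- **Signatures.** -/
theorem exists_c (hS : Setting k K D d s) (hdeg : finrank K D = 6 ^ 2) (h : Pr a b t j)
    (htK : ∀ c : K, algebraMap K D c ≠ t) (hsg : Sgd K D 6)
    (hpos : ∀ φ : k →+* ℝ, φ d < 0 → 0 < φ a)
    (hnf : ∀ c : D, star c = c → c * t = t * c → star j * c = -(c * j) →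
        ∀ x : kˣ, HasNrd K 6 c (algebraMap k K x) → x ∈ NF d) :
    ∃ c : D, star c = c ∧ c ≠ 0 ∧ c * t = t * c ∧ star j * c = -(c * j) ∧
      ∀ R : RData K D 6, R.CongAt 1 c := by
  classical
  have := hS.fin
  have := hS.cen
  have hSM : StarModule K D := ⟨hS.star_smul⟩
  have hK : ∃ z : K, star z ≠ z := by
    refine ⟨s, fun h => ?_⟩
    obtain ⟨c, hc⟩ := (hS.fix s).mp h
    exact hS.ns ⟨c, by
      apply (algebraMap k K).injective
      rw [map_mul, ← hS.sq, ← hc, pow_two]⟩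
  obtain ⟨u₀, hu₀, hne⟩ := exists_pj_ne hS h htK
  obtain ⟨c₀, hc₀⟩ : ∃ c₀, c₀ = Pj a b t j u₀ := ⟨_, rfl⟩
  rw [← hc₀] at hne
  have hcs : star c₀ = c₀ := by rw [hc₀]; exact pj_star h hu₀
  have hct : c₀ * t = t * c₀ := by rw [hc₀]; exact pj_t h u₀
  have hcj : star j * c₀ = -(c₀ * j) := by rw [hc₀]; exact pj_j h u₀
  obtain ⟨ι, _, R, hcom, hd⟩ := exists_family (D := D) hK (by norm_num : 0 < 6) hdeg
  rcases isEmpty_or_nonempty ι with hι | hι
  · refine ⟨c₀, hcs, hne, hct, hcj, fun R' => ?_⟩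
    obtain ⟨i, -⟩ := hcom R'.s R'.hs
    exact (hι.false i).elim
  obtain ⟨x, hx⟩ : ∃ x : kˣ, HasNrd K 6 c₀ (algebraMap k K x) := by
    obtain ⟨E, _, _, _, jE, w, hE, hw⟩ := exists_maxfield hdeg c₀
    have h1 : HasNrd K 6 c₀ (Algebra.norm K w) := by
      rw [← hw]
      exact hasNrd_norm hdeg hE jE w
    have h2 : HasNrd K 6 (star c₀) (star (Algebra.norm K w)) :=
      W.HasNrd.star (fun c => hS.star_alg c) h1
    rw [hcs] at h2
    obtain ⟨x, hx⟩ := (hS.fix _).mp (W.HasNrd.unique hdeg h2 h1)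
    rw [← hx] at h1
    have hx0 : x ≠ 0 := by
      rintro rfl
      rw [map_zero] at h1
      have h3 := h1.mul (h1.inv hne)
      rw [mul_inv_cancel₀ hne, zero_mul] at h3
      exact one_ne_zero (W.HasNrd.unique hdeg W.HasNrd.one h3)
    exact ⟨Units.mk0 x hx0, h1⟩
  have hxd : x ∈ NF d := hnf c₀ hcs hct hcj x hx
  have hloc : ∀ i, ∃ U₀ : Matrix (Fin 6) (Fin 6) ℂ, ∀ᶠ Z in 𝓝 U₀, ∀ u : D, (R i).f u = Z →
      (R i).CongAt 1 (Pj a b t j (u + star u)) := fun i =>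
    exists_loc hS h (R i) (hsg (R i)) hpos hcs hne hct hcj hx hxd
  choose U₀ hU₀ using hloc
  have hev : ∀ᶠ Z in 𝓝 U₀, ∀ i, ∀ u : D, (R i).f u = Z i →
      (R i).CongAt 1 (Pj a b t j (u + star u)) := by
    refine Filter.eventually_all.mpr fun i => ?_
    exact (continuous_apply i).continuousAt.eventually (hU₀ i)
  obtain ⟨u, hu⟩ := U2.dense_mem hd hev
  have hall : ∀ R' : RData K D 6, R'.CongAt 1 (Pj a b t j (u + star u)) :=
    of_family (by norm_num) hdeg hcom fun i => hu i u rfl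
  refine ⟨Pj a b t j (u + star u), pj_star h (by rw [star_add, star_star, add_comm]),
    fun h0 => ?_, pj_t h _, pj_j h _, hall⟩
  obtain ⟨i⟩ := hι
  obtain ⟨Q, hQ, h⟩ := hall (R i)
  rw [h0, map_zero, zero_mul, map_one, one_mul] at h
  have h1 : IsUnit (Q * (R i).A * Qᴴ) := (hQ.mul (R i).unit).mul hQ.star
  rw [h] at h1
  exact not_isUnit_zero h1

end Vale.Agent.P011.Six.H183
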