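import Vale.Agent.P011.Six.H183.QBase
import Vale.Agent.P011.Six.H183.QReal
import Vale.Agent.P011.Six.Semi

/-!
Degree six: a division algebra with an involution of the second kind of signature different from
`(5, 1)` at all real places is generated by a quaternion algebra over the base field stable under
the involution and its centralizer.
-/

open Module Matrix NumberField IsDedekindDomain
open Vale.Agent.P011.RP (RData HasR1)

set_option linter.unusedSectionVars false

namespace Vale.Agent.P011.Six.H183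

open Vale.Agent.P011.Arith Vale.Agent.P011.Even Vale.Agent.P011.Two Vale.Agent.P011.One
  Vale.Agent.P011.Pow
open Vale.Agent.P011.W (HasNrd exists_maxfield hasNrd_norm)
open Vale.Agent.P011.Tpl (Sgd)

variable {k K D : Type} [Field k] [NumberField k] [Field K] [NumberField K] [StarRing K]
  [DivisionRing D] [StarRing D] [Algebra k K] [Algebra k D] [Algebra K D] [IsScalarTower k K D]
  {d : kˣ} {s : K}

/-- **Existence of the quaternion algebra**: if the involution has signature `(5, 1)` at no real
place, then there are `i`, `j` in `D` generating a quaternion algebra over `k` on which the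
involution is the canonical one. -/
theorem exists_ij (hS : Setting k K D d s) (hdeg : finrank K D = 6 ^ 2) (hsg : Sgd K D 6) :
    ∃ (α β : kˣ) (i j : D), Base k α β i j := by
  have := hS.fin
  have := hS.cen
  have hSM : StarModule K D := ⟨hS.star_smul⟩
  have hK : ∃ z : K, star z ≠ z := by
    refine ⟨s, fun h => ?_⟩
    obtain ⟨c, hc⟩ := (hS.fix s).mp h
    exact hS.ns ⟨c, (algebraMap k K).injective (by rw [← hS.sq, ← hc, map_mul, pow_two])⟩
  obtain ⟨a, t, ht, ha, had, -, hpos, -⟩ := exists_base_gen hS (o := 3) (e := 1)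
    (by decide) le_rfl (by norm_num : (6 : ℕ) = 3 * 2 ^ 1) (by norm_num) hdeg
    (R := (∅ : Set (HeightOneSpectrum (𝓞 k)))) Set.finite_empty
  obtain ⟨b, j₁, hjj, hjt, hnf⟩ := exists_pair hS hdeg ha had ht
  have hfixk : ∀ a : k, star (algebraMap k K a) = algebraMap k K a := fun a =>
    (hS.fix _).mpr ⟨a, rfl⟩
  have h : Pr a b t j₁ :=
    { st := ht.1
      tt := ht.2
      jj := hjj
      jt := hjt
      sk := fun c => by
        rw [IsScalarTower.algebraMap_apply k K D, hS.star_alg, hfixk] }
  obtain ⟨c, hcs, hc0, hct, hcj, hcc⟩ := exists_c hS hdeg h (Xa_ne hS ha ht) hsg hpos hnf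
  obtain ⟨x, hx⟩ : ∃ x : kˣ, HasNrd K 6 c (algebraMap k K x) := by
    obtain ⟨E, _, _, _, jE, w, hE, hw⟩ := exists_maxfield hdeg c
    have h1 : HasNrd K 6 c (Algebra.norm K w) := by
      rw [← hw]
      exact hasNrd_norm hdeg hE jE w
    have h2 : HasNrd K 6 (star c) (star (Algebra.norm K w)) :=
      W.HasNrd.star (fun c => hS.star_alg c) h1
    rw [hcs] at h2
    obtain ⟨x, hx⟩ := (hS.fix _).mp (W.HasNrd.unique hdeg h2 h1)
    rw [← hx] at h1
    have hx0 : x ≠ 0 := by
      rintro rfl
      rw [map_zero] at h1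
      have h3 := h1.mul (h1.inv hc0)
      rw [mul_inv_cancel₀ hc0, zero_mul] at h3
      exact one_ne_zero (W.HasNrd.unique hdeg W.HasNrd.one h3)
    exact ⟨Units.mk0 x hx0, h1⟩
  obtain ⟨p, q, hpq⟩ := hnf c hcs hct hcj x hx
  obtain ⟨f⟩ := Vale.Agent.P011S.exists_split (K := K) (D := D) hdeg (AlgebraicClosure K)
  have hR1 : HasR1 K D 6 := hasR1 hK (by norm_num) hdeg
  obtain ⟨z, hz⟩ : ∃ z, z = algebraMap k K p + algebraMap k K q * s := ⟨_, rfl⟩
  have hzz : z * star z = algebraMap k K x := by
    rw [hz, star_add, star_mul', hfixk, hfixk, hS.star_s, hpq, map_sub, map_mul, map_pow, map_pow,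
      ← hS.sq]
    ring
  have hz0 : z ≠ 0 := by
    rintro h0
    rw [h0, zero_mul] at hzz
    exact (_root_.map_ne_zero (algebraMap k K)).mpr x.ne_zero hzz.symm
  obtain ⟨r, hr0, hr⟩ := hR1 (AlgebraicClosure K) f 1 c (star_one D) hcs one_ne_zero hc0
    ⟨z, hz0, by rw [map_one, Matrix.det_one, mul_one, hx _ f, hzz]⟩ hcc
  rw [mul_one] at hr
  have hsr0 : star r ≠ 0 := star_ne_zero.mpr hr0
  obtain ⟨S, hS'⟩ : ∃ S, S = algebraMap K D s := ⟨_, rfl⟩
  have hSS : S * S = algebraMap k D d := by
    rw [hS', ← map_mul, ← pow_two, hS.sq, ← IsScalarTower.algebraMap_apply]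
  have hSc : ∀ y : D, y * S = S * y := fun y => by rw [hS', Algebra.commutes]
  have hSs : star S = -S := by rw [hS', hS.star_alg, hS.star_s, map_neg]
  have hconj : ∀ y y' : D, star r * y * (star r)⁻¹ * (star r * y' * (star r)⁻¹) =
      star r * (y * y') * (star r)⁻¹ := by
    intro y y'
    simp only [mul_assoc, inv_mul_cancel_left₀ hsr0]
  have hcen : ∀ e : k, star r * algebraMap k D e * (star r)⁻¹ = algebraMap k D e := by
    intro e
    rw [← Algebra.commutes, mul_assoc, mul_inv_cancel₀ hsr0, mul_one]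
  have hstar : ∀ y : D, star (star r * y * (star r)⁻¹) = r⁻¹ * star y * r := by
    intro y
    rw [star_mul, star_mul, star_inv₀, star_star, ← mul_assoc]
  refine ⟨d * a, b, star r * (S * t) * (star r)⁻¹, star r * j₁ * (star r)⁻¹, ?_, ?_, ?_, ?_, ?_⟩
  · have h1 : t * (r * star r) = r * star r * t := by rw [← hr, hct]
    rw [hstar, star_mul, hSs, ht.1]
    calc r⁻¹ * (t * -S) * r = -(r⁻¹ * (t * S) * r) := by noncomm_ring
      _ = -(S * (r⁻¹ * t * r)) := by rw [hSc t, ← mul_assoc, hSc]; simp only [mul_assoc]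
      _ = -(S * (r⁻¹ * (t * (r * star r)) * (star r)⁻¹)) := by
        rw [← mul_assoc t, ← mul_assoc r⁻¹, ← mul_assoc r⁻¹, mul_assoc _ (star r),
          mul_inv_cancel₀ hsr0, mul_one]
      _ = -(S * (star r * t * (star r)⁻¹)) := by
        rw [h1, mul_assoc r, inv_mul_cancel_left₀ hr0]
      _ = _ := by
        congr 1
        rw [← mul_assoc (star r) S t, hSc (star r)]
        simp only [mul_assoc]
  · have h1 : star j₁ * (r * star r) = -(r * star r * j₁) := by rw [← hr, hcj]
    rw [hstar]
    calc r⁻¹ * star j₁ * r = r⁻¹ * (star j₁ * (r * star r)) * (star r)⁻¹ := by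
          rw [← mul_assoc (star j₁), ← mul_assoc r⁻¹, ← mul_assoc r⁻¹, mul_assoc _ (star r),
            mul_inv_cancel₀ hsr0, mul_one]
      _ = _ := by
        rw [h1, mul_neg, neg_mul, mul_assoc r, inv_mul_cancel_left₀ hr0]
  · rw [hconj]
    have h1 : S * t * (S * t) = algebraMap k D (d * a) := by
      calc S * t * (S * t) = S * (t * S) * t := by simp only [mul_assoc]
        _ = S * S * (t * t) := by rw [hSc]; simp only [mul_assoc]
        _ = _ := by rw [hSS, ht.2, map_mul]
    rw [h1, Units.val_mul, hcen]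
  · rw [hconj, hjj, hcen]
  · rw [hconj, hconj]
    have h1 : S * t * j₁ = -(j₁ * (S * t)) := by
      rw [← mul_assoc j₁, hSc j₁, mul_assoc, mul_assoc, hjt]
      noncomm_ring
    rw [h1]
    noncomm_ring

end Vale.Agent.P011.Six.H183
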