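import Vale.Agent.P011.Six.H183.QIdx
import Vale.Agent.P011.Pow.BaseF
import Vale.Agent.P011.Pow.RamSplit

/-!
Symmetric square roots in a division algebra of even degree.
-/

open NumberField IsDedekindDomain Module TensorProduct

namespace Vale.Agent.P011.Six.H183

open Vale.Agent.P011.Arith Vale.Agent.P011.Even Vale.Agent.P011.One Vale.Agent.P011.Pow
open Vale.Agent.P011.W (Spl)

variable {k K D : Type} [Field k] [NumberField k] [Field K] [NumberField K] [StarRing K]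
  [DivisionRing D] [StarRing D] [Algebra k K] [Algebra k D] [Algebra K D] [IsScalarTower k K D]
  {d : kˣ} {s : K}

/-- Symmetric square roots in even degree: only the places where the two-part of the index is the
two-part of the degree matter. -/
theorem exists_sym_sqrt_idt (hS : Setting k K D d s) {n o e : ℕ} (ho : Odd o) (he : 1 ≤ e)
    (hn : n = o * 2 ^ e) (hn4 : 4 ≤ n) (hdeg : finrank K D = n ^ 2) :
    ∃ S : Set (HeightOneSpectrum (𝓞 k)), S.Finite ∧ ∀ a : kˣ, ¬ IsSquare (a : k) →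
      ¬ IsSquare ((a * d : kˣ) : k) → (∀ φ : k →+* ℝ, φ d < 0 → 0 < φ a) →
      (e = 1 → ∀ φ : k →+* ℝ, 0 < φ d → φ a < 0) →
      (∀ v ∈ S, d ∉ LS (v.valuation k) → a * d ∉ LS (v.valuation k)) →
      (∀ (v : HeightOneSpectrum (𝓞 k)) (w : HeightOneSpectrum (𝓞 K)),
        w.asIdeal.comap (algebraMap (𝓞 k) (𝓞 K)) = v.asIdeal →
        ¬ Idt D n (algebraMap K (w.adicCompletion K)) (e - 1) → a ∉ LS (v.valuation k)) →
      ∃ t, t ∈ Xa D a := by
  have := hS.fin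
  have := hS.cen
  obtain ⟨m, hm⟩ : ∃ m, n = 2 * m := by
    refine ⟨o * 2 ^ (e - 1), ?_⟩
    obtain ⟨e', rfl⟩ : ∃ e', e = e' + 1 := ⟨e - 1, by omega⟩
    rw [hn, Nat.add_sub_cancel, pow_succ]
    ring
  have hdeg' : finrank K D = (2 * m) ^ 2 := by rw [hdeg, hm]
  obtain ⟨S, hSf, h⟩ := exists_symm hS (by omega) hdeg'
  refine ⟨S, hSf, fun a ha had hr hr1 hSa hT => ?_⟩
  obtain ⟨x, hx⟩ := exists_sqrt_idt ho he hn hdeg (algebraMap k K a) (by
    intro w hw
    obtain ⟨v, hv⟩ := exists_below (F := k) w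
    have hd : d ∈ LS (v.valuation k) := by
      by_contra hd
      exact hw (idt_of_spl _ (spl_nonsplit hS (by omega) hdeg hd hv))
    exact not_isSquare_split hS hd hv (hT v w hv hw)) (by
    intro he1 φ hφ
    exfalso
    have h1 : 0 < (φ.comp (algebraMap k K)) d := by
      have h2 : (φ.comp (algebraMap k K)) d = φ s ^ 2 := by
        rw [RingHom.comp_apply, ← map_pow, hS.sq]
      rw [h2]
      refine lt_of_le_of_ne (sq_nonneg _) fun h3 => ?_
      rw [← h2] at h3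
      exact d.ne_zero ((map_eq_zero _).mp h3.symm)
    have h2 := hr1 he1 (φ.comp (algebraMap k K)) h1
    rw [RingHom.comp_apply] at h2
    exact lt_asymm h2 hφ)
  exact h a x (by rw [hx, ← IsScalarTower.algebraMap_apply]) ha had hr hSa

/-- **Symmetric square roots** in even degree. -/
theorem exists_sym_sqrt_gen (hS : Setting k K D d s) {n o e : ℕ} (ho : Odd o) (he : 1 ≤ e)
    (hn : n = o * 2 ^ e) (hn4 : 4 ≤ n) (hdeg : finrank K D = n ^ 2) :
    ∃ S : Set (HeightOneSpectrum (𝓞 k)), S.Finite ∧ ∀ a : kˣ, ¬ IsSquare (a : k) →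
      ¬ IsSquare ((a * d : kˣ) : k) → (∀ φ : k →+* ℝ, φ d < 0 → 0 < φ a) →
      (e = 1 → ∀ φ : k →+* ℝ, 0 < φ d → φ a < 0) →
      (∀ v ∈ S, d ∉ LS (v.valuation k) → a * d ∉ LS (v.valuation k)) →
      (∀ v ∈ Ram k K D n, a ∉ LS (v.valuation k)) → ∃ t, t ∈ Xa D a := by
  have := hS.fin
  have := hS.cen
  obtain ⟨S, hSf, h⟩ := exists_sym_sqrt_idt hS ho he hn hn4 hdeg
  exact ⟨S, hSf, fun a ha had hr hr1 hSa hT => h a ha had hr hr1 hSa fun v w hw h1 =>
    hT v ⟨w, hw, fun h2 => h1 (idt_of_spl _ h2)⟩⟩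

/-- **The first square root** in even degree. -/
theorem exists_base_gen (hS : Setting k K D d s) {n o e : ℕ} (ho : Odd o) (he : 1 ≤ e)
    (hn : n = o * 2 ^ e) (hn4 : 4 ≤ n) (hdeg : finrank K D = n ^ 2)
    {R : Set (HeightOneSpectrum (𝓞 k))} (hR : R.Finite) :
    ∃ (a : kˣ) (t : D), t ∈ Xa D a ∧ ¬ IsSquare (a : k) ∧ ¬ IsSquare ((a * d : kˣ) : k) ∧
      (∀ v ∈ R ∪ Ram k K D n, a ∉ LS (v.valuation k) ∧ a * d ∉ LS (v.valuation k)) ∧
      (∀ φ : k →+* ℝ, φ d < 0 → 0 < φ a) ∧ ∀ φ : k →+* ℝ, 0 < φ d → φ a < 0 := by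
  have := hS.fin
  have := hS.cen
  obtain ⟨S, hSf, h⟩ := exists_sym_sqrt_gen hS ho he hn hn4 hdeg
  obtain ⟨a, ha, had, h3, h4, h5⟩ := exists_num d
    ((hR.union (ram_finite (k := k) (K := K) (D := D) (by omega) hdeg)).union hSf)
  obtain ⟨t, ht⟩ := h a ha had h4 (fun _ => h5) (fun v hv _ => (h3 v (Or.inr hv)).2)
    (fun v hv => (h3 v (Or.inl (Or.inr hv))).1)
  exact ⟨a, t, ht, ha, had, fun v hv => h3 v (Or.inl hv), h4, h5⟩

end Vale.Agent.P011.Six.H183
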