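import Vale.Agent.P011.Pow.ExSqrt

/-!
The local-global principle for the two-part of the index, and square roots in division algebras of
even degree.
-/

open NumberField IsDedekindDomain Polynomial Module TensorProduct

namespace Vale.Agent.P011.Six.H183

open Vale.Agent.P011.W Vale.Agent.P011.Pow
open Vale.Agent.P011.Arith (exists_below)
open Vale.Agent.P011.Even (nnf isUltra valued_alg)

section loc

variable {F D : Type} [Field F] [CharZero F] [DivisionRing D] [Algebra F D]
  [FiniteDimensional F D] [Algebra.IsCentral F D] {q : ℕ}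

omit [Algebra.IsCentral F D] [CharZero F] [FiniteDimensional F D] in
/-- The two-part of the index over the field divides `2 ^ m`. -/
def Idt (D : Type) [DivisionRing D] [Algebra F D] (q : ℕ) {R : Type} [Field R] (φ : F →+* R)
    (m : ℕ) : Prop :=
  ∃ (L : Type) (_ : Field L) (_ : Algebra R L) (o : ℕ), Odd o ∧ finrank R L ∣ o * 2 ^ m ∧
    0 < finrank R L ∧ Spl D q ((algebraMap R L).comp φ)

omit [Algebra.IsCentral F D] in
theorem dvd_of_idt (hD : finrank F D = q ^ 2) {m : ℕ}
    (h : Idt D q (RingHom.id F) m) : ∃ o, Odd o ∧ q ∣ o * 2 ^ m := by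
  obtain ⟨L, _, _, o, ho, hL, hL0, hs⟩ := h
  have : FiniteDimensional F L := Module.finite_of_finrank_pos hL0
  exact ⟨o, ho, (dvd_of_spl hD L (by rwa [RingHom.comp_id] at hs)).trans hL⟩

omit [CharZero F] in
theorem idt_self (hD : finrank F D = q ^ 2) {m o : ℕ} (ho : Odd o) (h : q ∣ o * 2 ^ m) :
    Idt D q (RingHom.id F) m := by
  obtain ⟨L, _, _, _, j, _, hL, _⟩ := exists_maxfield hD (1 : D)
  refine ⟨L, inferInstance, inferInstance, o, ho, by rw [hL]; exact h, Module.finrank_pos, ?_⟩
  rw [RingHom.comp_id]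
  exact spl_of_maxfield hD hL j

omit [CharZero F] [FiniteDimensional F D] [Algebra.IsCentral F D] in
theorem idt_part {E : Type} [Field E] [Algebra F E] {Δ : Type} [DivisionRing Δ] [Algebra E Δ]
    {q' : ℕ} (hiff : ∀ (R : Type) [Field R] (φ : E →+* R),
        Spl D q (φ.comp (algebraMap F E)) ↔ Spl Δ q' φ) {R : Type} [Field R] (ψ : E →+* R)
    {m : ℕ} : Idt D q (ψ.comp (algebraMap F E)) m ↔ Idt Δ q' ψ m := by
  constructor
  · rintro ⟨L, _, _, o, h1, h2, h3, h4⟩
    exact ⟨L, inferInstance, inferInstance, o, h1, h2, h3, (hiff L _).mp h4⟩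
  · rintro ⟨L, _, _, o, h1, h2, h3, h4⟩
    exact ⟨L, inferInstance, inferInstance, o, h1, h2, h3, (hiff L _).mpr h4⟩

/-- The index over any field divides the degree. -/
theorem idt_of_dvd (hD : finrank F D = q ^ 2) {m o : ℕ} (ho : Odd o) (h : q ∣ o * 2 ^ m)
    {R : Type} [Field R] (φ : F →+* R) : Idt D q φ m := by
  let _ : Algebra F R := φ.toAlgebra
  obtain ⟨n, q', hn, Δ, i1, i2, i3, i4, ψ, h1, h2, hiff⟩ := exists_part2 hD R
  have hcR : CharZero R := charZero_of_injective_algebraMap (algebraMap F R).injective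
  have h3 : q' ∣ o * 2 ^ m := (Dvd.intro_left n h1).trans h
  have h4 := (idt_part hiff (RingHom.id R)).mpr (idt_self h2 ho h3)
  rwa [RingHom.id_comp] at h4

theorem Idt.mono' (hD : finrank F D = q ^ 2) {R R' : Type} [Field R] [Field R'] {φ : F →+* R}
    {m : ℕ} (h : Idt D q φ m) (ψ : R →+* R') : Idt D q (ψ.comp φ) m := by
  let _ : Algebra F R := φ.toAlgebra
  obtain ⟨n, q', hn, Δ, i1, i2, i3, i4, -, h1, h2, hiff⟩ := exists_part2 hD R
  have hcR : CharZero R := charZero_of_injective_algebraMap (algebraMap F R).injective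
  have h3 : Idt Δ q' (RingHom.id R) m := by
    rw [← idt_part hiff (RingHom.id R), RingHom.id_comp]
    exact h
  obtain ⟨o, ho, h4⟩ := dvd_of_idt h2 h3
  exact (idt_part hiff ψ).mpr (idt_of_dvd h2 ho h4 ψ)

omit [CharZero F] [FiniteDimensional F D] [Algebra.IsCentral F D] in
theorem Idt.le {R : Type} [Field R] {φ : F →+* R} {m m' : ℕ} (h : Idt D q φ m) (hm : m ≤ m') :
    Idt D q φ m' := by
  obtain ⟨L, _, _, o, h1, h2, h3, h4⟩ := h
  exact ⟨L, inferInstance, inferInstance, o, h1,
    h2.trans (Nat.mul_dvd_mul_left o (pow_dvd_pow 2 hm)), h3, h4⟩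

omit [CharZero F] [FiniteDimensional F D] [Algebra.IsCentral F D] in
theorem idt_of_spl {R : Type} [Field R] {φ : F →+* R} (m : ℕ) (h : Spl D q φ) :
    Idt D q φ m :=
  ⟨R, inferInstance, inferInstance, 1, odd_one, by
    rw [Module.finrank_self]; exact one_dvd _, by rw [Module.finrank_self]; exact one_pos,
    h.comp _⟩

/-- In degree a power of two this is the bound of the index. -/
theorem idx_of_idt {j : ℕ} (hD : finrank F D = (2 ^ j) ^ 2) {R : Type} [Field R] {φ : F →+* R}
    {m : ℕ} (h : Idt D (2 ^ j) φ m) : Idx D (2 ^ j) φ m := by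
  let _ : Algebra F R := φ.toAlgebra
  obtain ⟨n, q', hn, Δ, i1, i2, i3, i4, -, h1, h2, hiff⟩ := exists_part2 hD R
  have hcR : CharZero R := charZero_of_injective_algebraMap (algebraMap F R).injective
  have h3 : Idt Δ q' (RingHom.id R) m := by
    rw [← idt_part hiff (RingHom.id R), RingHom.id_comp]
    exact h
  obtain ⟨o, ho, h4⟩ := dvd_of_idt h2 h3
  have h5 : q' ∣ 2 ^ j := Dvd.intro_left n h1
  have h6 : Nat.Coprime q' o := by
    refine Nat.Coprime.coprime_dvd_left h5 ?_
    exact Nat.Coprime.pow_left j ((Nat.coprime_two_left).mpr ho)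
  have h7 : q' ∣ 2 ^ m := h6.dvd_of_dvd_mul_left h4
  have h8 := (idx_part hiff (RingHom.id R)).mpr (idx_self h2 h7)
  rwa [RingHom.id_comp] at h8

end loc

section glob

/-- An extension of odd degree over which the degree of a Galois extension is a power of two. -/
theorem exists_odd_ext {F N : Type} [Field F] [NumberField F] [Field N] [Algebra F N]
    [FiniteDimensional F N] [IsGalois F N] :
    ∃ (M : Type) (_ : Field M) (_ : NumberField M) (_ : Algebra F M) (j : M →+* N) (c : ℕ),
      Odd (finrank F M) ∧ j.comp (algebraMap F M) = algebraMap F N ∧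
      ∃ (_ : Algebra M N), algebraMap M N = j ∧ finrank M N = 2 ^ c := by
  have hp := Nat.prime_two
  have hfact : Fact (Nat.Prime 2) := ⟨hp⟩
  obtain ⟨P⟩ : Nonempty (Sylow 2 (N ≃ₐ[F] N)) := inferInstance
  set M := IntermediateField.fixedField (P : Subgroup (N ≃ₐ[F] N)) with hM
  obtain ⟨m, hm⟩ := (IsPGroup.iff_card.mp P.isPGroup')
  have h1 : finrank M N = 2 ^ m := by
    rw [IntermediateField.finrank_fixedField_eq_card]; exact hm
  have h2 : Nat.Coprime (finrank F M) 2 := by
    have h3 := finrank_mul_finrank F M N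
    have h4 := (P : Subgroup (N ≃ₐ[F] N)).card_mul_index
    rw [hm, IsGalois.card_aut_eq_finrank, ← h3, h1, mul_comm] at h4
    have h5 : (P : Subgroup (N ≃ₐ[F] N)).index = finrank F M :=
      Nat.eq_of_mul_eq_mul_right (pow_pos hp.pos m) h4
    rw [← h5]
    exact (Nat.coprime_comm.mp ((Nat.Prime.coprime_iff_not_dvd hp).mpr P.not_dvd_index))
  have hfdM : FiniteDimensional F M := inferInstance
  have hchM : CharZero M := charZero_of_injective_algebraMap (algebraMap F M).injective
  have hfdQ : FiniteDimensional ℚ M := Module.Finite.trans F M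
  have hnfM : NumberField M := { to_charZero := hchM, to_finiteDimensional := hfdQ }
  refine ⟨M, inferInstance, hnfM, inferInstance, algebraMap M N, m,
    (Nat.coprime_two_right).mp h2, ?_, inferInstance, rfl, h1⟩
  ext x
  exact (IsScalarTower.algebraMap_apply F M N _).symm

/-- The two-part of the index is bounded by the two-parts of the local indices. -/
theorem idt_global {F D : Type} [Field F] [NumberField F] [DivisionRing D] [Algebra F D]
    [FiniteDimensional F D] [Algebra.IsCentral F D] {q : ℕ} (hD : finrank F D = q ^ 2) {m : ℕ}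
    (hloc : ∀ w : HeightOneSpectrum (𝓞 F), Idt D q (algebraMap F (w.adicCompletion F)) m)
    (hreal : m = 0 → ∀ φ : F →+* ℝ, Spl D q φ) : ∃ o, Odd o ∧ q ∣ o * 2 ^ m := by
  obtain ⟨L, _, _, _, j, _, hL, _⟩ := exists_maxfield hD (1 : D)
  have hsL := spl_of_maxfield hD hL j
  obtain ⟨N, _, _, _, _, -, g, -⟩ := exists_galois (K := F) (L := L) Nat.prime_two
  obtain ⟨M, _, _, _, jM, c, hodd, hjM, i1, hi1, hMN⟩ := exists_odd_ext (F := F) (N := N)
  obtain ⟨n, q', hn, Δ, i2, i3, i4, i5, -, h1, h2, hiff⟩ := exists_part2 hD M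
  have hfdMN : FiniteDimensional M N := Module.finite_of_finrank_pos (by rw [hMN]; positivity)
  have h3 : Spl Δ q' (algebraMap M N) := by
    rw [← hiff, hi1, hjM]
    have h1 := hsL.comp (g : L →+* N)
    have h2 : (g : L →+* N).comp (algebraMap F L) = algebraMap F N := by
      ext x
      exact g.commutes x
    rwa [h2] at h1
  obtain ⟨j', -, rfl⟩ := (Nat.dvd_prime_pow Nat.prime_two).mp (hMN ▸ dvd_of_spl h2 N h3)
  have h4 : 2 ^ j' ∣ 2 ^ m := by
    refine index_dvd' h2 (fun w => ?_) (fun hm φ => (hiff ℝ φ).mp (hreal hm _ ))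
    apply idx_of_idt h2
    rw [← idt_part hiff]
    obtain ⟨v, hv⟩ := exists_below (F := F) w
    obtain ⟨g, hg⟩ := completion_map hv
    have h5 := Idt.mono' hD (hloc v) g
    convert h5 using 1
    exact RingHom.ext fun x => (hg x).symm
  obtain ⟨L', _, _, _, j2, _, hL', _⟩ := exists_maxfield h2 (1 : Δ)
  have h5 : Spl D q ((algebraMap M L').comp (algebraMap F M)) :=
    (hiff L' _).mpr (spl_of_maxfield h2 hL' j2)
  let _ : Algebra F L' := ((algebraMap M L').comp (algebraMap F M)).toAlgebra
  have : IsScalarTower F M L' := IsScalarTower.of_algebraMap_eq fun x => rfl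
  have : FiniteDimensional F M := Module.finite_of_finrank_pos hodd.pos
  have : FiniteDimensional F L' := Module.Finite.trans M L'
  have h6 := dvd_of_spl hD L' h5
  rw [← Module.finrank_mul_finrank F M L', hL'] at h6
  exact ⟨finrank F M, hodd, h6.trans (Nat.mul_dvd_mul_left _ h4)⟩

end glob

section step

variable {F D : Type} [Field F] [CharZero F] [DivisionRing D] [Algebra F D]
  [FiniteDimensional F D] [Algebra.IsCentral F D] {q : ℕ}

/-- A quadratic extension of the local field halves the two-part of the index. -/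
theorem Idt.step (hD : finrank F D = q ^ 2) {R : Type} [NontriviallyNormedField R]
    [IsUltrametricDist R] [ProperSpace R] [Algebra F R] {m : ℕ}
    (h : Idt D q (algebraMap F R) (m + 1)) {R' : Type} [Field R'] [Algebra R R']
    (hR' : finrank R R' = 2) : Idt D q ((algebraMap R R').comp (algebraMap F R)) m := by
  obtain ⟨n, q', hn, Δ, i1, i2, i3, i4, -, h1, h2, hiff⟩ := exists_part2 hD R
  have hcR : CharZero R := charZero_of_injective_algebraMap (algebraMap F R).injective
  have hcR' : CharZero R' := charZero_of_injective_algebraMap (algebraMap R R').injective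
  obtain ⟨o, ho, h3⟩ : ∃ o, Odd o ∧ q' ∣ o * 2 ^ (m + 1) := by
    apply dvd_of_idt h2
    rw [← idt_part hiff (RingHom.id R), RingHom.id_comp]
    exact h
  rw [idt_part hiff]
  rcases Nat.even_or_odd q' with he | hoq
  · obtain ⟨n2, q2, hn2, Δ2, j1, j2, j3, j4, ψ, h4, h5, hiff2⟩ := exists_part2 h2 R'
    have h6 : n2 ≠ 1 := by
      rintro rfl
      obtain ⟨x, hx0, hx⟩ := lq_all R Δ q' h2 he R' hR'
      apply hx
      have h7 := isUnit_mat_one (ψ x) (by
        intro h8
        exact hx0 (ψ.injective (by rw [h8, map_zero])))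
      exact (MulEquiv.isUnit_map ψ).mp h7
    obtain ⟨L, _, _, _, -, -, -, h7⟩ := dvd_two_mul h2 hR' h5 hiff2
    have hq2 : 0 < q2 := deg_pos h5
    have h8 : n2 ∣ 2 := by
      rw [← h4] at h7
      exact Nat.dvd_of_mul_dvd_mul_right hq2 h7
    have h9 : n2 = 2 := ((Nat.dvd_prime Nat.prime_two).mp h8).resolve_left h6
    have h10 : q2 ∣ o * 2 ^ m := by
      rw [← h4, h9, pow_succ', ← mul_assoc, mul_comm o 2, mul_assoc] at h3
      exact Nat.dvd_of_mul_dvd_mul_left two_pos h3
    have h11 := (idt_part hiff2 (RingHom.id R')).mpr (idt_self h5 ho h10)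
    rwa [RingHom.id_comp] at h11
  · exact idt_of_dvd h2 hoq (Dvd.intro _ rfl) _

end step

section sqrt

/-- The two-part of the index over the completions of a quadratic extension. -/
theorem idt_quad {F D : Type} [Field F] [NumberField F] [DivisionRing D] [Algebra F D]
    [FiniteDimensional F D] [Algebra.IsCentral F D] {q : ℕ} (hD : finrank F D = q ^ 2)
    {M : Type} [Field M] [NumberField M] [Algebra F M] {c : F} {r : M}
    (hr : r ^ 2 = algebraMap F M c) {w : HeightOneSpectrum (𝓞 F)} {w' : HeightOneSpectrum (𝓞 M)}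
    (hw : w'.asIdeal.comap (algebraMap (𝓞 F) (𝓞 M)) = w.asIdeal)
    (hc : ¬ IsSquare (algebraMap F (w.adicCompletion F) c)) {m : ℕ}
    (h : Idt D q (algebraMap F (w.adicCompletion F)) (m + 1)) :
    Idt D q (pl (F := F) M w') m := by
  let _ := nnf w
  have := isUltra w
  set cw := algebraMap F (w.adicCompletion F) c with hcw
  have hirr : Irreducible (X ^ 2 - C cw : (w.adicCompletion F)[X]) :=
    X_pow_sub_C_irreducible_of_prime Nat.prime_two (fun b hb => hc ⟨b, by rw [← hb, sq]⟩)
  let _ : Fact (Irreducible (X ^ 2 - C cw : (w.adicCompletion F)[X])) := ⟨hirr⟩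
  have hne : (X ^ 2 - C cw : (w.adicCompletion F)[X]) ≠ 0 := hirr.ne_zero
  have hrk : finrank (w.adicCompletion F) (AdjoinRoot (X ^ 2 - C cw : (w.adicCompletion F)[X])) =
      2 := by
    rw [(AdjoinRoot.powerBasis hne).finrank, AdjoinRoot.powerBasis_dim, natDegree_X_pow_sub_C]
  have h1 := Idt.step hD h hrk
  obtain ⟨g, hg⟩ := completion_map hw
  have h2 : (X ^ 2 - C cw : (w.adicCompletion F)[X]).eval₂ g
      (algebraMap M (w'.adicCompletion M) r) = 0 := by
    rw [eval₂_sub, eval₂_pow, eval₂_X, eval₂_C, hcw, hg, ← hr, map_pow, sub_self]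
  have h3 := Idt.mono' hD h1 (AdjoinRoot.lift g _ h2)
  convert h3 using 1
  refine RingHom.ext fun x => ?_
  change algebraMap M _ (algebraMap F M x) =
    AdjoinRoot.lift g _ h2 (AdjoinRoot.of _ (algebraMap F (w.adicCompletion F) x))
  rw [AdjoinRoot.lift_of, hg]

/-- Square roots in a division algebra of even degree: an element which is not a square at the
finite places where the two-part of the index is the two-part of the degree. -/
theorem exists_sqrt_idt {F D : Type} [Field F] [NumberField F] [DivisionRing D] [Algebra F D]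
    [FiniteDimensional F D] [Algebra.IsCentral F D] {n o e : ℕ} (ho : Odd o) (he : 1 ≤ e)
    (hn : n = o * 2 ^ e) (hD : finrank F D = n ^ 2) (a : F)
    (ha : ∀ w : HeightOneSpectrum (𝓞 F), ¬ Idt D n (algebraMap F (w.adicCompletion F)) (e - 1) →
      ¬ IsSquare (algebraMap F (w.adicCompletion F) a))
    (hreal : e = 1 → ∀ φ : F →+* ℝ, 0 < φ a → Spl D n φ) : ∃ x : D, x * x = algebraMap F D a := by
  by_cases hasq : IsSquare a
  · obtain ⟨r, rfl⟩ := hasq
    exact ⟨algebraMap F D r, (map_mul _ _ _).symm⟩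
  have ha0 : a ≠ 0 := by
    rintro rfl
    exact hasq ⟨0, (mul_zero _).symm⟩
  obtain ⟨M, _, _, _, r, hr2, hM⟩ := exists_quad hasq
  obtain ⟨n1, q', hn1, Δ, i1, i2, i3, i4, -, h1, h2, hiff⟩ := exists_part2 hD M
  obtain ⟨o', ho', h3⟩ : ∃ o', Odd o' ∧ q' ∣ o' * 2 ^ (e - 1) := by
    refine idt_global h2 ?_ (fun h φ => ?_)
    · intro w'
      rw [← idt_part hiff]
      obtain ⟨w, hw⟩ := exists_below (F := F) w'
      by_cases h : Idt D n (algebraMap F (w.adicCompletion F)) (e - 1)
      · obtain ⟨g, hg⟩ := completion_map hw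
        have h5 := Idt.mono' hD h g
        convert h5 using 1
        exact RingHom.ext fun x => (hg x).symm
      · refine idt_quad hD hr2 hw (ha w h) (idt_of_dvd hD ho ?_ _)
        rw [show e - 1 + 1 = e by omega, hn]
    · rw [← hiff]
      refine hreal (by omega) _ ?_
      have h4 : (φ.comp (algebraMap F M)) a = φ r ^ 2 := by
        rw [RingHom.comp_apply, ← hr2, map_pow]
      rw [h4]
      refine lt_of_le_of_ne (sq_nonneg _) fun h5 => ha0 ?_
      have h6 : φ r = 0 := pow_eq_zero_iff (two_ne_zero) |>.mp h5.symm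
      rw [map_eq_zero] at h6
      rw [h6, zero_pow two_ne_zero] at hr2
      exact (map_eq_zero (algebraMap F M)).mp hr2.symm
  obtain ⟨L, _, _, jL, hjL, hL, hs, h4⟩ := dvd_two_mul hD hM h2 hiff
  have hq' : 0 < q' := deg_pos h2
  have h5 : n1 ∣ 2 := by
    rw [← h1] at h4
    exact Nat.dvd_of_mul_dvd_mul_right hq' h4
  have h6 : finrank F L = n := by
    rw [hL, ← h1]
    rcases (Nat.dvd_prime Nat.prime_two).mp h5 with h7 | h7
    · exfalso
      rw [h7, one_mul] at h1
      rw [h1, hn] at h3
      have h8 : 2 ^ (e - 1) * 2 ∣ 2 ^ (e - 1) * o' := by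
        rw [← pow_succ, show e - 1 + 1 = e by omega, mul_comm _ o']
        exact (Dvd.intro_left o rfl).trans h3
      have h9 : 2 ∣ o' := Nat.dvd_of_mul_dvd_mul_left (by positivity) h8
      exact (Nat.not_even_iff_odd.mpr ho') (even_iff_two_dvd.mpr h9)
    · rw [h7]
  obtain ⟨ι⟩ := embed_of_spl hD h6 hs
  refine ⟨ι (jL r), ?_⟩
  rw [← map_mul, ← sq, ← map_pow, hr2, ← RingHom.comp_apply, hjL, ι.commutes]

/-- Square roots in a division algebra of even degree: an element which is not a square at the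
finite places where the algebra is not split. -/
theorem exists_sqrt_gen {F D : Type} [Field F] [NumberField F] [DivisionRing D] [Algebra F D]
    [FiniteDimensional F D] [Algebra.IsCentral F D] {n o e : ℕ} (ho : Odd o) (he : 1 ≤ e)
    (hn : n = o * 2 ^ e) (hD : finrank F D = n ^ 2) (a : F)
    (ha : ∀ w : HeightOneSpectrum (𝓞 F), ¬ Spl D n (algebraMap F (w.adicCompletion F)) →
      ¬ IsSquare (algebraMap F (w.adicCompletion F) a))
    (hreal : e = 1 → ∀ φ : F →+* ℝ, 0 < φ a → Spl D n φ) : ∃ x : D, x * x = algebraMap F D a :=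
  exists_sqrt_idt ho he hn hD a (fun w h => ha w fun h1 => h (idt_of_spl _ h1)) hreal

end sqrt

end Vale.Agent.P011.Six.H183
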