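import Vale.Agent.P011.W.Nrd
import Vale.Agent.P011.W.Eich2

/-!
Division algebras of degree three with a semilinear automorphism whose square is inner.
-/

open Module

namespace Vale.Agent.P011.Six.H183

open Vale.Agent.P011.W

/-- The determinant of a semilinear map whose square is linear. -/
theorem semi_det {M V : Type} [Field M] [AddCommGroup V] [Module M V] {n : ℕ}
    (b : Basis (Fin n) M V) (σ : M →+* M) (Z : V → V) (hadd : ∀ x y, Z (x + y) = Z x + Z y)
    (hsm : ∀ (m : M) (y : V), Z (m • y) = σ m • Z y) (T : V →ₗ[M] V)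
    (hZZ : ∀ y, Z (Z y) = T y) : ∃ m : M, m * σ m = LinearMap.det T := by
  classical
  obtain ⟨A, hA⟩ : ∃ A : Matrix (Fin n) (Fin n) M, A = Matrix.of fun p l => b.repr (Z (b l)) p :=
    ⟨_, rfl⟩
  let Zh : V →+ V := AddMonoidHom.mk' Z hadd
  have hZh : ∀ y, Zh y = Z y := fun y => rfl
  have h1 : ∀ l, Z (b l) = ∑ p, A p l • b p := by
    intro l
    conv_lhs => rw [← b.sum_repr (Z (b l))]
    rw [hA]
    rfl
  have h2 : A * σ.mapMatrix A = LinearMap.toMatrix b b T := by
    ext q l
    have h3 : Z (Z (b l)) = ∑ q, (∑ p, A q p * σ (A p l)) • b q := by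
      conv_lhs => rw [h1 l]
      rw [← hZh, map_sum]
      have e1 : ∀ p, Zh (A p l • b p) = ∑ q, (A q p * σ (A p l)) • b q := by
        intro p
        rw [hZh, hsm, h1 p, Finset.smul_sum]
        exact Finset.sum_congr rfl fun q _ => by rw [smul_smul, mul_comm]
      rw [Finset.sum_congr rfl fun p _ => e1 p, Finset.sum_comm]
      exact Finset.sum_congr rfl fun q _ => by rw [← Finset.sum_smul]
    rw [LinearMap.toMatrix_apply, ← hZZ, h3, map_sum, Finsupp.finsetSum_apply,
      Finset.sum_eq_single q]
    · rw [map_smul, Finsupp.smul_apply, Basis.repr_self, Finsupp.single_eq_same, smul_eq_mul,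
        mul_one, Matrix.mul_apply]
      rfl
    · intro p _ hp
      rw [map_smul, Finsupp.smul_apply, Basis.repr_self, Finsupp.single_eq_of_ne (Ne.symm hp),
        smul_zero]
    · intro h
      exact absurd (Finset.mem_univ q) h
  refine ⟨A.det, ?_⟩
  have h3 := congrArg Matrix.det h2
  rw [Matrix.det_mul, LinearMap.det_toMatrix, ← RingHom.map_det] at h3
  exact h3

section lemA

variable {F C : Type} [Field F] [CharZero F] [DivisionRing C] [Algebra F C]
  [FiniteDimensional F C] [Algebra.IsCentral F C]

/-- The semilinear automorphism `τ` becomes, up to an inner automorphism by an element commuting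
with `w`, one whose square is trivial. -/
theorem exists_tw (hC : finrank F C = 3 ^ 2) (τ : C →+* C) (τ0 : F →+* F)
    (hτ : ∀ c, τ (algebraMap F C c) = algebraMap F C (τ0 c)) {w : C} (hw0 : w ≠ 0)
    (hτw : τ w = w) (hττ : ∀ x, τ (τ x) = w * x * w⁻¹) {ν : F} (hν : HasNrd F 3 w ν) :
    ∃ h : C, h * w = w * h ∧ h * τ h * w = algebraMap F C ν := by
  by_cases hwF : ∃ c : F, algebraMap F C c = w
  · obtain ⟨c, rfl⟩ := hwF
    have h1 : ν = c ^ 3 := HasNrd.unique hC hν (HasNrd.algMap c)
    refine ⟨algebraMap F C c, rfl, ?_⟩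
    rw [hτw, h1, map_pow]
    noncomm_ring
  obtain ⟨M, _, _, _, jM, u, hM, hu⟩ := exists_maxfield hC w
  have hinj : Function.Injective jM := jM.toRingHom.injective
  have hadj : IntermediateField.adjoin F {u} = ⊤ := by
    have h1 : IsSimpleOrder (IntermediateField F M) :=
      IntermediateField.isSimpleOrder_of_finrank_prime F M (by rw [hM]; exact Nat.prime_three)
    rcases eq_bot_or_eq_top (IntermediateField.adjoin F {u}) with h | h
    · rw [IntermediateField.adjoin_simple_eq_bot_iff, IntermediateField.mem_bot] at h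
      obtain ⟨c, hc⟩ := h
      exact absurd ⟨c, by rw [← hu, ← hc, jM.commutes]⟩ hwF
    · exact h
  have hadj2 : Algebra.adjoin F {u} = ⊤ := by
    rw [← IntermediateField.adjoin_simple_toSubalgebra_of_isAlgebraic
      (IsAlgebraic.of_finite F u), hadj, IntermediateField.top_toSubalgebra]
  have hσm : ∀ m : M, ∃ m' : M, jM m' = τ (jM m) := by
    intro m
    have hm : m ∈ Algebra.adjoin F {u} := by rw [hadj2]; exact Algebra.mem_top
    induction hm using Algebra.adjoin_induction with
    | mem x hx =>
      rw [Set.mem_singleton_iff] at hx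
      exact ⟨u, by rw [hx, hu, hτw]⟩
    | algebraMap c => exact ⟨algebraMap F M (τ0 c), by rw [jM.commutes, jM.commutes, hτ]⟩
    | add x y _ _ hx hy =>
      obtain ⟨x', hx'⟩ := hx
      obtain ⟨y', hy'⟩ := hy
      exact ⟨x' + y', by rw [map_add, map_add, map_add, hx', hy']⟩
    | mul x y _ _ hx hy =>
      obtain ⟨x', hx'⟩ := hx
      obtain ⟨y', hy'⟩ := hy
      exact ⟨x' * y', by rw [map_mul, map_mul, map_mul, hx', hy']⟩
  choose σ0 hσ0 using hσm
  let σ : M →+* M :=
    { toFun := σ0
      map_one' := hinj (by rw [hσ0, map_one, map_one])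
      map_mul' := fun a c => hinj (by rw [hσ0, map_mul, map_mul, map_mul, hσ0, hσ0])
      map_zero' := hinj (by rw [hσ0, map_zero, map_zero])
      map_add' := fun a c => hinj (by rw [hσ0, map_add, map_add, map_add, hσ0, hσ0]) }
  have hσ : ∀ m, jM (σ m) = τ (jM m) := hσ0
  have hσu : σ u = u := hinj (by rw [hσ, hu, hτw])
  -- the module structure
  let _ : Module M C := Module.compHom C (jM : M →+* C)
  have hsmul : ∀ (m : M) (y : C), m • y = jM m * y := fun _ _ => rfl
  have hst : IsScalarTower F M C := ⟨fun c m y => by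
    rw [hsmul, hsmul, Algebra.smul_def c m, map_mul, jM.commutes, mul_assoc,
      ← Algebra.smul_def]⟩
  have _ : FiniteDimensional M C := FiniteDimensional.right F M C
  have hfin : finrank M C = 3 := by
    have h5 : finrank F M * finrank M C = finrank F C := Module.finrank_mul_finrank F M C
    rw [hM, hC] at h5
    omega
  let b : Basis (Fin 3) M C := Module.finBasisOfFinrankEq M C hfin
  -- right multiplications
  let Rr : C → (C →ₗ[M] C) := fun c =>
    { toFun := fun y => y * c
      map_add' := fun y z => add_mul y z c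
      map_smul' := fun m y => by
        rw [hsmul, RingHom.id_apply, hsmul, mul_assoc] }
  have hRr : ∀ c y, Rr c y = y * c := fun _ _ => rfl
  let f : C →ₐ[F] Matrix (Fin 3) (Fin 3) M :=
    AlgHom.ofLinearMap
      { toFun := fun c => (LinearMap.toMatrix b b (Rr c)).transpose
        map_add' := fun c c' => by
          rw [← Matrix.transpose_add, ← map_add]
          congr 2
          ext y
          exact mul_add y c c'
        map_smul' := fun e c => by
          rw [RingHom.id_apply]
          have h1 : Rr (e • c) = (algebraMap F M e) • Rr c := by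
            ext y
            rw [hRr, LinearMap.smul_apply, hRr, hsmul, jM.commutes, ← Algebra.smul_def,
              mul_smul_comm]
          rw [h1, map_smul, Matrix.transpose_smul, algebraMap_smul] }
      (by
        change (LinearMap.toMatrix b b (Rr 1)).transpose = 1
        have h1 : Rr 1 = LinearMap.id := by
          ext y
          exact mul_one y
        rw [h1, LinearMap.toMatrix_id, Matrix.transpose_one])
      (fun c c' => by
        change (LinearMap.toMatrix b b (Rr (c * c'))).transpose =
          (LinearMap.toMatrix b b (Rr c)).transpose * (LinearMap.toMatrix b b (Rr c')).transpose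
        rw [← Matrix.transpose_mul, ← LinearMap.toMatrix_comp b b b]
        congr 2
        ext y
        exact (mul_assoc y c c').symm)
  have hf : ∀ c, f c = (LinearMap.toMatrix b b (Rr c)).transpose := fun _ => rfl
  have hν0 : ν ≠ 0 := by
    rintro rfl
    have h1 := (hν.mul (hν.inv hw0))
    rw [mul_inv_cancel₀ hw0, zero_mul] at h1
    exact one_ne_zero (HasNrd.unique hC HasNrd.one h1)
  have hu0 : u ≠ 0 := by
    rintro rfl
    rw [map_zero] at hu
    exact hw0 hu.symm
  have hdet : LinearMap.det (Rr w⁻¹) = algebraMap F M ν⁻¹ := by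
    have h1 := (hν.inv hw0) M f
    rwa [hf, Matrix.det_transpose, LinearMap.det_toMatrix] at h1
  obtain ⟨m, hm⟩ := semi_det b σ (fun y => τ y) (fun x y => map_add τ x y)
    (fun m y => by
      change τ (jM m * y) = jM (σ m) * τ y
      rw [map_mul, hσ]) (u • Rr w⁻¹) (fun y => by
        rw [hττ, LinearMap.smul_apply, hRr, hsmul, hu, mul_assoc])
  rw [LinearMap.det_smul, hfin, hdet] at hm
  have hm0 : m * σ m ≠ 0 := by
    rw [hm]
    exact mul_ne_zero (pow_ne_zero 3 hu0) ((_root_.map_ne_zero _).mpr (inv_ne_zero hν0))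
  refine ⟨jM (u * m⁻¹), ?_, ?_⟩
  · rw [← hu, ← map_mul, ← map_mul, mul_comm]
  · rw [← hσ, ← hu, ← map_mul, ← map_mul, ← jM.commutes]
    congr 1
    rw [map_mul, hσu, map_inv₀]
    have h1 : u * m⁻¹ * (u * (σ m)⁻¹) * u = u ^ 3 * (m * σ m)⁻¹ := by
      rw [mul_inv]
      ring
    rw [h1, hm, mul_inv, map_inv₀, inv_inv, mul_inv_cancel_left₀ (pow_ne_zero 3 hu0)]

end lemA

end Vale.Agent.P011.Six.H183
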