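import Vale.Agent.P011.Tpl.H541.Sg
import Vale.Agent.P011.Pow.MatLem

/-!
Hermitian forms for which a given pair of anticommuting matrices of square a positive and a real
number is symmetric and antisymmetric: the possible signatures, in dimension six.
-/

open Module Matrix

set_option linter.unusedSectionVars false

namespace Vale.Agent.P011.Six.H183

open Vale.Agent.P011.Tpl.H541 (Sig sd)

abbrev I6 := Fin 3 ⊕ Fin 3

/-- The diagonal matrix. -/
abbrev J0 : Matrix I6 I6 ℂ := fromBlocks 1 0 0 (-1)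

/-- The antidiagonal matrix. -/
abbrev N0 (b : ℝ) : Matrix I6 I6 ℂ := fromBlocks 0 1 ((b : ℂ) • 1) 0

theorem mat_zero {A : Matrix (Fin 3) (Fin 3) ℂ} (h : A = -A) : A = 0 := by
  ext i j
  have h1 := congrFun (congrFun h i) j
  rw [Matrix.neg_apply] at h1
  exact self_eq_neg.mp h1

section normal

variable {X Y : Matrix I6 I6 ℂ} {q b : ℝ}

/-- The two eigenspaces have the same dimension. -/
theorem rank_half {y : Matrix I6 I6 ℂ} (hb : b ≠ 0) (hy : y * y = 1)
    (hY : Y * Y = (b : ℂ) • 1) (hyY : y * Y = -(Y * y)) :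
    finrank ℂ (LinearMap.range (Matrix.toLin' ((2 : ℂ)⁻¹ • (1 + y)))) = 3 := by
  obtain ⟨P, hP⟩ : ∃ P, P = (2 : ℂ)⁻¹ • (1 + y) := ⟨_, rfl⟩
  rw [← hP]
  have hb' : (b : ℂ) ≠ 0 := by exact_mod_cast hb
  have hPP : P * P = P := by
    have h3 : (1 + y) * (1 + y) = (2 : ℂ) • (1 + y) := by
      rw [add_mul, mul_add, mul_add, one_mul, one_mul, mul_one, hy, two_smul, add_comm y 1]
    rw [hP, smul_mul_assoc, mul_smul_comm, h3, smul_smul, smul_smul]
    congr 1
    norm_num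
  have hPY : P * Y = Y * (1 - P) := by
    have h1 : (1 : Matrix I6 I6 ℂ) - P = (2 : ℂ)⁻¹ • (1 - y) := by
      rw [hP, smul_add, smul_sub]
      have : (1 : Matrix I6 I6 ℂ) = (2 : ℂ)⁻¹ • 1 + (2 : ℂ)⁻¹ • 1 := by
        rw [← add_smul]
        norm_num
      nth_rewrite 1 [this]
      abel
    rw [h1, hP, smul_mul_assoc, mul_smul_comm, add_mul, mul_sub, one_mul, mul_one, hyY]
    rfl
  have hYinj : Function.Injective (Matrix.toLin' Y) := by
    rw [← LinearMap.ker_eq_bot, LinearMap.ker_eq_bot']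
    intro v hv
    have h1 : Matrix.toLin' (Y * Y) v = 0 := by
      rw [Matrix.toLin'_mul, LinearMap.comp_apply, hv, map_zero]
    rw [hY, map_smul, Matrix.toLin'_one, LinearMap.smul_apply, LinearMap.id_apply] at h1
    exact (smul_eq_zero.mp h1).resolve_left hb'
  have e1 : ∀ v, Matrix.toLin' P (Matrix.toLin' P v) = Matrix.toLin' P v := by
    intro v
    rw [← LinearMap.comp_apply, ← Matrix.toLin'_mul, hPP]
  have e2 : ∀ v, Matrix.toLin' P (Matrix.toLin' Y v) =
      Matrix.toLin' Y (v - Matrix.toLin' P v) := by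
    intro v
    rw [← LinearMap.comp_apply, ← Matrix.toLin'_mul, hPY, Matrix.toLin'_mul,
      LinearMap.comp_apply, map_sub, Matrix.toLin'_one]
    rfl
  have h1 : finrank ℂ (LinearMap.range (Matrix.toLin' P)) ≤
      finrank ℂ (LinearMap.ker (Matrix.toLin' P)) := by
    refine LinearMap.finrank_le_finrank_of_injective
      (f := (Matrix.toLin' Y).restrict (p := LinearMap.range (Matrix.toLin' P))
        (q := LinearMap.ker (Matrix.toLin' P)) ?_) ?_
    · rintro _ ⟨v, rfl⟩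
      rw [LinearMap.mem_ker, e2, e1, sub_self, map_zero]
    · intro u v huv
      exact Subtype.ext (hYinj (congrArg Subtype.val huv))
  have h2 : finrank ℂ (LinearMap.ker (Matrix.toLin' P)) ≤
      finrank ℂ (LinearMap.range (Matrix.toLin' P)) := by
    refine LinearMap.finrank_le_finrank_of_injective
      (f := (Matrix.toLin' Y).restrict (p := LinearMap.ker (Matrix.toLin' P))
        (q := LinearMap.range (Matrix.toLin' P)) ?_) ?_
    · intro v hv
      rw [LinearMap.mem_ker] at hv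
      refine ⟨Matrix.toLin' Y v, ?_⟩
      rw [e2, hv, sub_zero]
    · intro u v huv
      exact Subtype.ext (hYinj (congrArg Subtype.val huv))
  have h3 := (Matrix.toLin' P).finrank_range_add_finrank_ker
  rw [Module.finrank_fintype_fun_eq_card, Fintype.card_sum, Fintype.card_fin] at h3
  omega

/-- The normal form of a pair of anticommuting matrices. -/
theorem normal_form (hq : 0 < q) (hb : b ≠ 0) (hX : X * X = ((q : ℂ) * q) • 1)
    (hY : Y * Y = (b : ℂ) • 1) (hXY : X * Y = -(Y * X)) :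
    ∃ S : Matrix I6 I6 ℂ, IsUnit S ∧ S * X = (q : ℂ) • (J0 * S) ∧ S * Y = N0 b * S := by
  have hq0 : (q : ℂ) ≠ 0 := by exact_mod_cast hq.ne'
  have hb' : (b : ℂ) ≠ 0 := by exact_mod_cast hb
  obtain ⟨y, hy⟩ : ∃ y, y = (q : ℂ)⁻¹ • X := ⟨_, rfl⟩
  have hXy : X = (q : ℂ) • y := by rw [hy, smul_smul, mul_inv_cancel₀ hq0, one_smul]
  have hyy : y * y = 1 := by
    rw [hy, smul_mul_smul_comm, hX, smul_smul]
    have : (q : ℂ)⁻¹ * (q : ℂ)⁻¹ * (q * q) = 1 := by field_simp
    rw [this, one_smul]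
  have hyY : y * Y = -(Y * y) := by
    rw [hy, smul_mul_assoc, hXY, mul_smul_comm, smul_neg]
  have hidem : ∀ z : Matrix I6 I6 ℂ, z * z = 1 →
      IsIdempotentElem (Matrix.toLin' ((2 : ℂ)⁻¹ • (1 + z))) := by
    intro z hz
    have h1 : ((2 : ℂ)⁻¹ • (1 + z)) * ((2 : ℂ)⁻¹ • (1 + z)) = (2 : ℂ)⁻¹ • (1 + z) := by
      have h3 : (1 + z) * (1 + z) = (2 : ℂ) • (1 + z) := by
        rw [add_mul, mul_add, mul_add, one_mul, one_mul, mul_one, hz, two_smul, add_comm z 1]
      rw [smul_mul_assoc, mul_smul_comm, h3, smul_smul, smul_smul]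
      congr 1
      norm_num
    have h2 := Matrix.toLin'_mul ((2 : ℂ)⁻¹ • (1 + z)) ((2 : ℂ)⁻¹ • (1 + z))
    rw [h1] at h2
    exact h2.symm
  have hJ0 : J0 * J0 = 1 := by
    rw [J0, fromBlocks_multiply]
    simp [fromBlocks_one]
  have hr0 : finrank ℂ (LinearMap.range (Matrix.toLin' ((2 : ℂ)⁻¹ • (1 + J0)))) = 3 := by
    refine rank_half (b := 1) (Y := N0 1) one_ne_zero hJ0 ?_ ?_
    · rw [N0, fromBlocks_multiply]
      simp [fromBlocks_one]
    · rw [N0, J0, fromBlocks_multiply, fromBlocks_multiply, fromBlocks_neg]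
      simp
  obtain ⟨φ, hφ⟩ := Pow.ML.proj_conj (hidem y hyy) (hidem J0 hJ0)
    (by rw [rank_half hb hyy hY hyY, hr0])
  obtain ⟨P, hP⟩ : ∃ P, P = LinearMap.toMatrix' (φ : (I6 → ℂ) →ₗ[ℂ] (I6 → ℂ)) := ⟨_, rfl⟩
  have hPu : IsUnit P := by
    rw [hP, LinearMap.isUnit_toMatrix'_iff, Module.End.isUnit_iff]
    exact φ.bijective
  have hPv : ∀ x, P *ᵥ x = φ x := by
    intro x
    rw [hP, LinearMap.toMatrix'_mulVec]
    rfl
  have h2 : P * ((2 : ℂ)⁻¹ • (1 + y)) = ((2 : ℂ)⁻¹ • (1 + J0)) * P := by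
    apply Matrix.toLin'.injective
    refine LinearMap.ext fun x => ?_
    have := hφ x
    rw [Matrix.toLin'_apply, Matrix.toLin'_apply] at this
    rw [Matrix.toLin'_apply, Matrix.toLin'_apply, ← Matrix.mulVec_mulVec, hPv, this,
      ← Matrix.mulVec_mulVec, hPv]
  have hPy : P * y = J0 * P := by
    rw [mul_smul_comm, smul_mul_assoc, mul_add, add_mul, mul_one, one_mul] at h2
    have h3 := smul_right_injective _ (inv_ne_zero (two_ne_zero' ℂ)) h2
    exact add_left_cancel h3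
  obtain ⟨⟨P, P', hPP, hPP'⟩, rfl⟩ := hPu
  simp only at hPy
  -- the second matrix
  obtain ⟨Y1, hY1⟩ : ∃ Y1, Y1 = P * Y * P' := ⟨_, rfl⟩
  have hPY : P * Y = Y1 * P := by rw [hY1, mul_assoc _ P' P, hPP', mul_one]
  have hJY : J0 * Y1 = -(Y1 * J0) := by
    have e1 : P' * J0 = y * P' := by
      calc P' * J0 = P' * J0 * (P * P') := by rw [hPP, mul_one]
        _ = P' * (J0 * P) * P' := by simp only [mul_assoc]
        _ = P' * P * y * P' := by rw [← hPy]; simp only [mul_assoc]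
        _ = y * P' := by rw [hPP', one_mul]
    calc J0 * Y1 = (J0 * P) * Y * P' := by rw [hY1]; simp only [mul_assoc]
      _ = P * (y * Y) * P' := by rw [← hPy]; simp only [mul_assoc]
      _ = -(P * Y * (y * P')) := by rw [hyY]; noncomm_ring
      _ = -(Y1 * J0) := by rw [← e1, hY1]; simp only [mul_assoc]
  have hY1Y1 : Y1 * Y1 = (b : ℂ) • 1 := by
    calc Y1 * Y1 = P * Y * (P' * P) * Y * P' := by rw [hY1]; simp only [mul_assoc]
      _ = P * (Y * Y) * P' := by rw [hPP', mul_one]; simp only [mul_assoc]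
      _ = _ := by rw [hY, mul_smul_comm, mul_one, smul_mul_assoc, hPP]
  obtain ⟨A, B, C, D, hbl⟩ : ∃ A B C D, Y1 = fromBlocks A B C D :=
    ⟨_, _, _, _, (fromBlocks_toBlocks Y1).symm⟩
  rw [hbl, J0, fromBlocks_multiply, fromBlocks_multiply, fromBlocks_neg, fromBlocks_inj] at hJY
  simp only [one_mul, zero_mul, add_zero, mul_one, mul_zero, neg_mul, zero_add, mul_neg,
    neg_neg] at hJY
  obtain ⟨h3, -, -, h4⟩ := hJY
  have hA0 : A = 0 := mat_zero h3
  have hD0 : D = 0 := mat_zero h4.symm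
  rw [hA0, hD0] at hbl
  rw [hbl, fromBlocks_multiply, ← fromBlocks_one, fromBlocks_smul, fromBlocks_inj] at hY1Y1
  simp only [zero_mul, mul_zero, zero_add, add_zero, smul_zero] at hY1Y1
  obtain ⟨h5, -, -, h6⟩ := hY1Y1
  have hBu : IsUnit B := by
    refine ⟨⟨B, (b : ℂ)⁻¹ • C, ?_, ?_⟩, rfl⟩
    · rw [mul_smul_comm, h5, smul_smul, inv_mul_cancel₀ hb', one_smul]
    · rw [smul_mul_assoc, h6, smul_smul, inv_mul_cancel₀ hb', one_smul]
  have hSu : IsUnit (fromBlocks 1 0 0 B : Matrix I6 I6 ℂ) := by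
    obtain ⟨⟨B, B', hBB, hBB'⟩, rfl⟩ := hBu
    refine ⟨⟨fromBlocks 1 0 0 B, fromBlocks 1 0 0 B', ?_, ?_⟩, rfl⟩
    · rw [fromBlocks_multiply]
      simp [hBB, fromBlocks_one]
    · rw [fromBlocks_multiply]
      simp [hBB', fromBlocks_one]
  refine ⟨fromBlocks 1 0 0 B * P, hSu.mul ⟨⟨P, P', hPP, hPP'⟩, rfl⟩, ?_, ?_⟩
  · rw [hXy, mul_smul_comm, mul_assoc, hPy, ← mul_assoc, ← mul_assoc]
    congr 2
    rw [J0, fromBlocks_multiply, fromBlocks_multiply]
    simp
  · rw [mul_assoc, hPY, ← mul_assoc, ← mul_assoc]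
    congr 1
    rw [hbl, N0, fromBlocks_multiply, fromBlocks_multiply]
    simp [h5]

end normal

section sig

variable {G : Matrix I6 I6 ℂ} {p : ℕ}

/-- The sign of the determinant. -/
theorem det_sign {ι : Type} [Fintype ι] [DecidableEq ι] {G : Matrix ι ι ℂ} {p : ℕ}
    (h : Sig G p) : ∃ r : ℝ, 0 < r ∧ G.det = (r : ℂ) * (-1) ^ (Fintype.card ι - p) := by
  obtain ⟨T, η, hT, h1, h2⟩ := h
  have hd := (Matrix.isUnit_iff_isUnit_det _).mp hT
  have hd0 : T.det ≠ 0 := hd.ne_zero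
  have h3 := congrArg Matrix.det h1
  rw [Matrix.det_mul, Matrix.det_mul, Matrix.det_conjTranspose, sd, Matrix.det_diagonal] at h3
  have h4 : ∏ i, ((((η i : ℤˣ) : ℤ) : ℝ) : ℂ) = (-1) ^ (Fintype.card ι - p) := by
    classical
    have e1 : ∀ i, ((((η i : ℤˣ) : ℤ) : ℝ) : ℂ) = if η i = 1 then 1 else -1 := by
      intro i
      rcases Int.units_eq_one_or (η i) with h | h <;> rw [h] <;> simp
    simp_rw [e1]
    rw [Finset.prod_ite, Finset.prod_const_one, one_mul, Finset.prod_const]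
    congr 1
    have e2 := Finset.card_filter_add_card_filter_not (s := (Finset.univ : Finset ι))
      (p := fun i => η i = 1)
    rw [Finset.card_univ] at e2
    have e3 : (Finset.univ.filter fun i => η i = 1).card = p := by
      rw [← h2, Fintype.card_subtype]
    omega
  rw [h4] at h3
  refine ⟨(Complex.normSq T.det)⁻¹, inv_pos.mpr (Complex.normSq_pos.mpr hd0), ?_⟩
  have h5 : T.det * star T.det = (Complex.normSq T.det : ℂ) := Complex.mul_conj _
  have h6 : (Complex.normSq T.det : ℂ) ≠ 0 := by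
    rw [← h5]
    exact mul_ne_zero hd0 (star_ne_zero.mpr hd0)
  have h7 : star T.det ≠ 0 := star_ne_zero.mpr hd0
  rw [← h3, Complex.ofReal_inv, ← h5]
  field_simp

theorem sig_parity {ι : Type} [Fintype ι] [DecidableEq ι] {A M : Matrix ι ι ℂ} {p p' : ℕ}
    (h : Sig A p) (h' : Sig M p') {r : ℝ} (hr : 0 < r) (hdet : A.det * M.det = (r : ℂ)) :
    Even (Fintype.card ι - p + (Fintype.card ι - p')) := by
  obtain ⟨r1, hr1, h1⟩ := det_sign h
  obtain ⟨r2, hr2, h2⟩ := det_sign h'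
  by_contra hodd
  rw [Nat.not_even_iff_odd] at hodd
  have h3 : ((r1 * r2 * (-1) : ℝ) : ℂ) = (r : ℂ) := by
    rw [← hdet, h1, h2, ← hodd.neg_one_pow, pow_add]
    push_cast
    rw [← (by rw [Complex.ofReal_neg, Complex.ofReal_one] : ((-1 : ℝ) : ℂ) = -1)]
    push_cast
    ring
  have h4 : r1 * r2 * (-1) = r := by exact_mod_cast h3
  have h5 : 0 < r1 * r2 := mul_pos hr1 hr2
  linarith

end sig

end Vale.Agent.P011.Six.H183
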