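import Vale.Agent.P011.Six.H183.QLemA
import Vale.Agent.P011.Pow.Kappa

/-!
Degree six: an element `j₁` anticommuting with a symmetric square root, whose square is in the base
field, and the reduced norms of the symmetric elements attached to the pair.
-/

open NumberField IsDedekindDomain Polynomial Module

set_option linter.unusedSectionVars false

namespace Vale.Agent.P011.Six.H183

open Vale.Agent.P011.Arith Vale.Agent.P011.Even Vale.Agent.P011.Two Vale.Agent.P011.One
  Vale.Agent.P011.Pow
open Vale.Agent.P011.W (HasNrd exists_maxfield hasNrd_norm hasNrd_of_det hasNrd_iff)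

section nf

variable {F : Type} [Field F] [CharZero F]

theorem nf_swap {a x : Fˣ} (h : x ∈ NF a) : a ∈ NF x := by
  obtain ⟨p, q, h1⟩ := h
  by_cases hq : q = 0
  · rw [hq, zero_pow two_ne_zero, mul_zero, sub_zero] at h1
    have hp : p ≠ 0 := by
      rintro rfl
      exact x.ne_zero (by rw [h1, zero_pow two_ne_zero])
    refine ⟨((a : F) + 1) / 2, ((a : F) - 1) / (2 * p), ?_⟩
    rw [h1]
    field_simp
    ring
  · refine ⟨p / q, 1 / q, ?_⟩
    field_simp
    linear_combination h1

/-- Norms from two quadratic extensions are norms from the third one. -/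
theorem nf_three {a d x : Fˣ} (h1 : x ∈ NF a) (h2 : x ∈ NF (a * d)) : x ∈ NF d := by
  have h3 := Subgroup.mul_mem _ (Subgroup.inv_mem _ (nf_swap h1)) (nf_swap h2)
  rw [inv_mul_cancel_left] at h3
  exact nf_swap h3

end nf

section auto

/-- The reduced norm of the image under a semilinear automorphism. -/
theorem hasNrd_auto {F C : Type} [Field F] [DivisionRing C] [Algebra F C] {m : ℕ} (τ : C →+* C)
    (τ0 : F →+* F) (hτ : ∀ c, τ (algebraMap F C c) = algebraMap F C (τ0 c)) {x : C} {ν : F}
    (h : HasNrd F m x ν) : HasNrd F m (τ x) (τ0 ν) := by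
  intro Ω _ _ f
  exact (hasNrd_iff.mp h) Ω ((algebraMap F Ω).comp τ0) ((f : C →+* _).comp τ) (fun c => by
    change f (τ (algebraMap F C c)) = _
    rw [hτ, AlgHom.commutes]
    rfl)

end auto

variable {k K D : Type} [Field k] [NumberField k] [Field K] [NumberField K] [StarRing K]
  [DivisionRing D] [StarRing D] [Algebra k K] [Algebra k D] [Algebra K D] [IsScalarTower k K D]
  {d : kˣ} {s : K}

/-- There are antisymmetric elements anticommuting with a symmetric square root. -/
theorem exists_skew (hS : Setting k K D d s) {a : kˣ} (ha : ¬ IsSquare (a : k)) {t : D}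
    (ht : t ∈ Xa D a) : ∃ j : D, j ≠ 0 ∧ star j = -j ∧ j * t = -(t * j) := by
  have := hS.cen
  have hchar : CharZero D := charZero_of_injective_algebraMap (algebraMap k D).injective
  have htK : ∀ c : K, algebraMap K D c ≠ t := Xa_ne hS ha ht
  obtain ⟨y, hy⟩ : ∃ y : D, y * t - t * y ≠ 0 := by
    by_contra hcon
    push Not at hcon
    have h4 : t ∈ Subalgebra.center K D := by
      rw [Subalgebra.mem_center_iff]
      intro y
      exact sub_eq_zero.mp (hcon y)
    have h5 := Algebra.IsCentral.out h4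
    rw [Algebra.mem_bot] at h5
    obtain ⟨c, hc⟩ := h5
    exact htK c hc
  obtain ⟨z, hz⟩ : ∃ z, z = y * t - t * y := ⟨_, rfl⟩
  have hzt : z * t = -(t * z) := by
    have h1 : z * t + t * z = y * (t * t) - (t * t) * y := by
      rw [hz]
      noncomm_ring
    rw [ht.2, Algebra.commutes, sub_self] at h1
    exact eq_neg_of_add_eq_zero_left h1
  have hzt' : star z * t = -(t * star z) := by
    have h1 := congrArg star hzt
    rw [star_mul, star_neg, star_mul, ht.1] at h1
    rw [h1, neg_neg]
  rw [← hz] at hy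
  by_cases h0 : z - star z = 0
  · have hzs : star z = z := (sub_eq_zero.mp h0).symm
    have hs0 : algebraMap K D s ≠ 0 := by
      rw [Ne, map_eq_zero]
      exact hS.s_ne
    refine ⟨algebraMap K D s * z, mul_ne_zero hs0 hy, ?_, ?_⟩
    · rw [star_mul, hS.star_alg, hS.star_s, map_neg, hzs, mul_neg, Algebra.commutes]
    · rw [mul_assoc, hzt, mul_neg, ← mul_assoc, ← mul_assoc, Algebra.commutes s t]
  · refine ⟨z - star z, h0, ?_, ?_⟩
    · rw [star_sub, star_star, neg_sub]
    · rw [sub_mul, mul_sub, hzt, hzt']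
      abel

/-- **The pair.** An element `j₁` which anticommutes with the symmetric square root `t`, with a
square in `k`, such that the reduced norms of the symmetric elements `c` commuting with `t` with
`star j₁ * c = -(c * j₁)` are norms from `K`. -/
theorem exists_pair (hS : Setting k K D d s) (hdeg : finrank K D = 6 ^ 2) {a : kˣ}
    (ha : ¬ IsSquare (a : k)) (had : ¬ IsSquare ((a * d : kˣ) : k)) {t : D} (ht : t ∈ Xa D a) :
    ∃ (b : kˣ) (j₁ : D), j₁ * j₁ = algebraMap k D b ∧ j₁ * t = -(t * j₁) ∧
      ∀ c : D, star c = c → c * t = t * c → star j₁ * c = -(c * j₁) →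
        ∀ x : kˣ, HasNrd K 6 c (algebraMap k K x) → x ∈ NF d := by
  obtain ⟨L, _, _, _, K', _, _, _, _, C, _, _, _, _, _, _, T, ι, hSC, hC, h⟩ :=
    exists_isCent hS ha had (m := 3) (by rw [hdeg]) ht
  have := hS.fin
  have := hS.cen
  have := hSC.fin
  have := hSC.cen
  obtain ⟨j, hj0, hjs, hjt⟩ := exists_skew hS ha ht
  have hTT : algebraMap L K' T * algebraMap L K' T = algebraMap K K' (algebraMap k K a) := by
    rw [← map_mul, h.sqT, h.comp]
  obtain ⟨T', hT'⟩ : ∃ T', T' = algebraMap L K' T := ⟨_, rfl⟩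
  have hsT : star T' = T' := by rw [hT']; exact (hSC.fix _).mpr ⟨T, rfl⟩
  have hιT : ι (algebraMap K' C T') = t := by
    rw [hT', ← IsScalarTower.algebraMap_apply L K' C, h.jT]
  rw [← hT'] at hTT
  have hrep : ∀ l : K', ∃ u v : K, l = algebraMap K K' u + algebraMap K K' v * T' := by
    intro l
    rw [hT']
    exact h.repK l
  have hjti : t * j⁻¹ = -(j⁻¹ * t) := by
    have h1 : j * (t * j⁻¹ + j⁻¹ * t) * j = 0 := by
      have h2 : j * (t * j⁻¹ + j⁻¹ * t) * j = j * t * (j⁻¹ * j) + (j * j⁻¹) * t * j := by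
        noncomm_ring
      rw [h2, inv_mul_cancel₀ hj0, mul_inv_cancel₀ hj0, mul_one, one_mul, hjt]
      abel
    have h2 := (mul_eq_zero.mp ((mul_eq_zero.mp h1).resolve_right hj0)).resolve_left hj0
    exact eq_neg_of_add_eq_zero_left h2
  -- the semilinear automorphism
  have hex : ∀ c : C, ∃ c' : C, ι c' = j * ι c * j⁻¹ := by
    intro c
    refine (h.range _).mp ?_
    have h1 := h.comm c
    calc j * ι c * j⁻¹ * t = -(j * ι c * (t * j⁻¹)) := by rw [hjti]; noncomm_ring
      _ = -(j * (ι c * t) * j⁻¹) := by noncomm_ring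
      _ = -((j * t) * ι c * j⁻¹) := by rw [h1]; noncomm_ring
      _ = t * (j * ι c * j⁻¹) := by rw [hjt]; noncomm_ring
  choose τf hτf using hex
  let τ : C →+* C :=
    { toFun := τf
      map_one' := h.inj (by rw [hτf, map_one, mul_one, mul_inv_cancel₀ hj0])
      map_mul' := fun x y => h.inj (by
        rw [hτf, map_mul, map_mul, hτf, hτf]
        simp only [mul_assoc, inv_mul_cancel_left₀ hj0])
      map_zero' := h.inj (by rw [hτf, map_zero, mul_zero, zero_mul])
      map_add' := fun x y => h.inj (by rw [hτf, map_add, map_add, hτf, hτf, mul_add, add_mul]) }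
  have hτ : ∀ c, ι (τ c) = j * ι c * j⁻¹ := hτf
  have hτK : ∀ u : K, τ (algebraMap K' C (algebraMap K K' u)) =
      algebraMap K' C (algebraMap K K' u) := by
    intro u
    apply h.inj
    rw [hτ, h.jK, ← Algebra.commutes, mul_assoc, mul_inv_cancel₀ hj0, mul_one]
  have hτT : τ (algebraMap K' C T') = -algebraMap K' C T' := by
    apply h.inj
    rw [hτ, hιT, map_neg, hιT, hjt, neg_mul, mul_assoc, mul_inv_cancel₀ hj0, mul_one]
  have hex0 : ∀ l : K', ∃ l' : K', algebraMap K' C l' = τ (algebraMap K' C l) := by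
    intro l
    obtain ⟨u, v, rfl⟩ := hrep l
    refine ⟨algebraMap K K' u - algebraMap K K' v * T', ?_⟩
    rw [map_sub, map_mul, map_add, map_mul, map_add, map_mul, hτK, hτK, hτT]
    noncomm_ring
  choose τg hτg using hex0
  have hinjC : Function.Injective (algebraMap K' C) := (algebraMap K' C).injective
  let τ0 : K' →+* K' :=
    { toFun := τg
      map_one' := hinjC (by rw [hτg, map_one, map_one])
      map_mul' := fun x y => hinjC (by rw [hτg, map_mul, map_mul, map_mul, hτg, hτg])
      map_zero' := hinjC (by rw [hτg, map_zero, map_zero])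
      map_add' := fun x y => hinjC (by rw [hτg, map_add, map_add, map_add, hτg, hτg]) }
  have hττ0 : ∀ l, τ (algebraMap K' C l) = algebraMap K' C (τ0 l) := fun l => (hτg l).symm
  have hτ0K : ∀ u : K, τ0 (algebraMap K K' u) = algebraMap K K' u := by
    intro u
    apply hinjC
    rw [← hττ0, hτK]
  have hτ0T : τ0 T' = -T' := by
    apply hinjC
    rw [← hττ0, hτT, map_neg]
  have hτ0rep : ∀ u v : K, τ0 (algebraMap K K' u + algebraMap K K' v * T') =
      algebraMap K K' u - algebraMap K K' v * T' := by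
    intro u v
    rw [map_add, map_mul, hτ0K, hτ0K, hτ0T]
    ring
  have hnorm : ∀ l : K', algebraMap K K' (Algebra.norm K l) = l * τ0 l := by
    intro l
    obtain ⟨u, v, rfl⟩ := hrep l
    rw [norm_quad h.rkK hTT hrep, hτ0rep, map_sub, map_mul, map_pow, map_pow, ← hTT]
    ring
  -- the square of `j`
  obtain ⟨w, hw⟩ : ∃ w : C, ι w = j * j := by
    refine (h.range _).mp ?_
    rw [mul_assoc, hjt, mul_neg, ← mul_assoc, hjt, neg_mul, neg_neg, mul_assoc]
  have hw0 : w ≠ 0 := by
    rintro rfl
    rw [map_zero] at hw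
    exact (mul_ne_zero hj0 hj0) hw.symm
  have hws : star w = w := h.inj (by rw [h.star, hw, star_mul, hjs]; noncomm_ring)
  have hτw : τ w = w := h.inj (by rw [hτ, hw]; simp only [mul_assoc, mul_inv_cancel₀ hj0, mul_one])
  have hτ2 : ∀ x, τ (τ x) = w * x * w⁻¹ := by
    intro x
    apply h.inj
    rw [hτ, hτ, map_mul, map_mul, map_inv₀, hw, mul_inv_rev]
    simp only [mul_assoc]
  obtain ⟨ν, hν, -⟩ := exists_nrd_cent (n := 6) hdeg hC (by rw [h.rkK]) ι h.jK w
  have hνs : star ν = ν := by
    have h1 : HasNrd K' 3 (star w) (star ν) := W.HasNrd.star (fun c => hSC.star_alg c) hν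
    rw [hws] at h1
    exact W.HasNrd.unique hC h1 hν
  have hντ : τ0 ν = ν := by
    have h1 := hasNrd_auto τ τ0 hττ0 hν
    rw [hτw] at h1
    exact W.HasNrd.unique hC h1 hν
  have hstarKK : ∀ u : K, star (algebraMap K K' u) = algebraMap K K' (star u) := by
    intro u
    apply hinjC
    apply h.inj
    rw [← hSC.star_alg, h.star, h.jK, h.jK, hS.star_alg]
  have hT0 : T' ≠ 0 := by
    intro h0
    rw [h0, mul_zero] at hTT
    exact (_root_.map_ne_zero _).mpr ((_root_.map_ne_zero _).mpr a.ne_zero) hTT.symm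
  -- elements fixed by `τ0`
  have hfix0 : ∀ l : K', τ0 l = l → ∃ u : K, l = algebraMap K K' u := by
    intro l hl
    obtain ⟨u, v, rfl⟩ := hrep l
    rw [hτ0rep] at hl
    have h1 : algebraMap K K' v * T' = 0 := by linear_combination -hl / 2
    exact ⟨u, by rw [h1, add_zero]⟩
  obtain ⟨b, hb⟩ : ∃ b : kˣ, ν = algebraMap K K' (algebraMap k K b) := by
    obtain ⟨u, rfl⟩ := hfix0 ν hντ
    rw [hstarKK] at hνs
    obtain ⟨b, hb⟩ := (hS.fix u).mp ((algebraMap K K').injective hνs)
    have hb0 : b ≠ 0 := by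
      rintro rfl
      rw [map_zero] at hb
      rw [← hb, map_zero] at hν
      have h1 := (hν.mul (hν.inv hw0))
      rw [mul_inv_cancel₀ hw0, zero_mul] at h1
      exact one_ne_zero (W.HasNrd.unique hC W.HasNrd.one h1)
    exact ⟨Units.mk0 b hb0, by rw [Units.val_mk0, hb]⟩
  obtain ⟨g, hgw, hg⟩ := exists_tw hC τ τ0 hττ0 hw0 hτw hτ2 hν
  have hb0 : (algebraMap k K (b : k)) ≠ 0 := (_root_.map_ne_zero _).mpr b.ne_zero
  have hν0 : ν ≠ 0 := by rw [hb]; exact (_root_.map_ne_zero _).mpr hb0
  have hg0 : g ≠ 0 := by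
    rintro rfl
    rw [zero_mul, zero_mul] at hg
    exact (_root_.map_ne_zero (algebraMap K' C)).mpr hν0 hg.symm
  -- the reduced norm of `g`
  obtain ⟨η, hη, -⟩ := exists_nrd_cent (n := 6) hdeg hC (by rw [h.rkK]) ι h.jK g
  have hηη : η * τ0 η = ν ^ 2 := by
    have h1 := (hη.mul (hasNrd_auto τ τ0 hττ0 hη)).mul hν
    rw [hg] at h1
    have h2 := W.HasNrd.unique hC h1 (W.HasNrd.algMap ν)
    have h3 : η * τ0 η * ν = ν ^ 2 * ν := by rw [h2]; ring
    exact mul_right_cancel₀ hν0 h3
  refine ⟨b, ι g * j, ?_, ?_, ?_⟩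
  · have h1 : ι g * j * (ι g * j) = ι (g * τ g * w) := by
      rw [map_mul, map_mul, hτ, hw]
      simp only [mul_assoc, inv_mul_cancel_left₀ hj0]
    rw [h1, hg, hb, h.jK, ← IsScalarTower.algebraMap_apply]
  · rw [mul_assoc, hjt, mul_neg, ← mul_assoc, h.comm g, mul_assoc]
  · intro c hcs hct hcj x hx
    obtain ⟨c', rfl⟩ := (h.range c).mp hct
    have hcs' : star c' = c' := h.inj (by rw [h.star, hcs])
    obtain ⟨u, hu, hu2⟩ := exists_nrd_cent (n := 6) hdeg hC (by rw [h.rkK]) ι h.jK c'
    have hxu : algebraMap k K x = Algebra.norm K u := W.HasNrd.unique hdeg hx hu2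
    -- first norm
    have hus : star u = u := by
      have h1 : HasNrd K' 3 (star c') (star u) := W.HasNrd.star (fun c => hSC.star_alg c) hu
      rw [hcs'] at h1
      exact W.HasNrd.unique hC h1 hu
    have n1 : x ∈ NF a := by
      obtain ⟨l, hl⟩ := (hSC.fix u).mp hus
      obtain ⟨p, q, rfl⟩ := h.repL l
      rw [map_add, map_mul, ← h.comp, ← h.comp, ← hT'] at hl
      refine ⟨p, q, (algebraMap k K).injective ?_⟩
      rw [hxu, ← hl, norm_quad h.rkK hTT hrep, map_sub, map_mul, map_pow, map_pow]
    -- second norm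
    obtain ⟨e, he⟩ : ∃ e, e = c' * g := ⟨_, rfl⟩
    have hes : τ (star e) = e := by
      apply h.inj
      have h1 : star (ι e * j) = -(ι e * j) := by
        have h2 : ι e * j = ι c' * (ι g * j) := by rw [he, map_mul, mul_assoc]
        rw [h2, star_mul, ← h.star, hcs', hcj]
      rw [star_mul, hjs, neg_mul, neg_inj, ← h.star] at h1
      rw [hτ, h1, mul_assoc, mul_inv_cancel₀ hj0, mul_one]
    have hue : HasNrd K' 3 e (u * η) := by rw [he]; exact hu.mul hη
    have hues : τ0 (star (u * η)) = u * η := by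
      have h1 : HasNrd K' 3 (star e) (star (u * η)) := W.HasNrd.star (fun c => hSC.star_alg c) hue
      have h2 := hasNrd_auto τ τ0 hττ0 h1
      rw [hes] at h2
      exact W.HasNrd.unique hC h2 hue
    have n2 : x ∈ NF (a * d) := by
      obtain ⟨p, q, hpq⟩ := hrep (u * η)
      have h1 : algebraMap K K' (star p) - algebraMap K K' (star q) * T' =
          algebraMap K K' p + algebraMap K K' q * T' := by
        rw [hpq] at hues
        rw [← hues, star_add, star_mul, hsT, hstarKK, hstarKK, mul_comm T', hτ0rep]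
      obtain ⟨h2, h3⟩ : star p = p ∧ star q = -q := by
        have h4 : algebraMap K K' (star p - p) = algebraMap K K' (q + star q) * T' := by
          rw [map_sub, map_add]
          linear_combination h1
        have h5 : q + star q = 0 := by
          by_contra h6
          have h7 : T' = algebraMap K K' ((star p - p) / (q + star q)) := by
            rw [map_div₀, h4, mul_comm, mul_div_assoc, div_self, mul_one]
            exact (_root_.map_ne_zero _).mpr h6
          have h8 := congrArg τ0 h7
          rw [hτ0K, hτ0T, ← h7] at h8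
          exact hT0 (neg_eq_self.mp h8)
        rw [h5, map_zero, zero_mul, map_eq_zero, sub_eq_zero] at h4
        exact ⟨h4, eq_neg_of_add_eq_zero_right h5⟩
      obtain ⟨p', rfl⟩ := (hS.fix p).mp h2
      obtain ⟨q', hq'⟩ : ∃ q' : k, q = algebraMap k K q' * s := by
        obtain ⟨q1, q2, hq⟩ := hS.span q
        have hk : ∀ c : k, star (algebraMap k K c) = algebraMap k K c := fun c =>
          (hS.fix _).mpr ⟨c, rfl⟩
        rw [hq, star_add, star_mul, hk, hk, hS.star_s] at h3
        have h4 : algebraMap k K q1 = 0 := by linear_combination h3 / 2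
        exact ⟨q2, by rw [hq, h4, zero_add]⟩
      have h4 : algebraMap K K' (algebraMap k K (x * b ^ 2 : k)) =
          algebraMap K K' (algebraMap k K (p' ^ 2 - (a * d : k) * q' ^ 2)) := by
        have h5 : algebraMap K K' (Algebra.norm K (u * η)) =
            algebraMap K K' (algebraMap k K (x * b ^ 2 : k)) := by
          rw [map_mul (Algebra.norm K), map_mul (algebraMap K K'), ← hxu, hnorm η, hηη, hb,
            map_mul (algebraMap k K), map_mul (algebraMap K K'), map_pow (algebraMap k K),
            map_pow (algebraMap K K')]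
        rw [← h5, hpq, norm_quad h.rkK hTT hrep, hq']
        congr 1
        rw [map_sub, map_mul, map_mul, map_pow, map_pow, mul_pow, hS.sq]
        ring
      have h5 : (x * b ^ 2 : k) = p' ^ 2 - (a * d : k) * q' ^ 2 :=
        (algebraMap k K).injective ((algebraMap K K').injective h4)
      refine ⟨p' / b, q' / b, ?_⟩
      have hb1 : (b : k) ≠ 0 := b.ne_zero
      rw [Units.val_mul]
      field_simp
      linear_combination h5
    exact nf_three n1 n2

end Vale.Agent.P011.Six.H183
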