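import Vale.Agent.P011.Six.H183.QTar
import Vale.Agent.P011.Six.H183.QNorm
import Vale.Agent.P011.Pow.SigX
import Vale.Agent.P011.Three.Eps

/-!
Degree six: symmetric elements commuting with `t` and antisymmetric with respect to `j₁`, with the
signatures of one.
-/

open Module Matrix Filter Topology
open scoped ComplexOrder

set_option linter.unusedSectionVars false

namespace Vale.Agent.P011.Six.H183

open Vale.Agent.P011.Arith Vale.Agent.P011.Even Vale.Agent.P011.One Vale.Agent.P011.RP
open Vale.Agent.P011.W (HasNrd hasNrd_iff exists_maxfield hasNrd_norm)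
open Vale.Agent.P011.Tpl (Lor Sgd)

section alg

variable {k K D : Type} [Field k] [Field K] [StarRing K]
  [DivisionRing D] [StarRing D] [Algebra k K] [Algebra k D] [Algebra K D] [IsScalarTower k K D]
  {d : kˣ} {s : K}

/-- Four times the projection to the symmetric elements attached to the pair. -/
def Pj (a b : kˣ) (t j u : D) : D :=
  algebraMap k D (a * b) * u + algebraMap k D b * (t * u * t) -
    algebraMap k D a * (star j * u * j) + star j * t * u * (j * t)

/-- The relations of the pair. -/
structure Pr (a b : kˣ) (t j : D) : Prop where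
  st : star t = t
  tt : t * t = algebraMap k D a
  jj : j * j = algebraMap k D b
  jt : j * t = -(t * j)
  sk : ∀ c : k, star (algebraMap k D c) = algebraMap k D c

variable {a b : kˣ} {t j : D}

theorem Pr.sjj (h : Pr a b t j) : star j * star j = algebraMap k D b := by
  rw [← star_mul, h.jj, h.sk]

theorem Pr.tsj (h : Pr a b t j) : t * star j = -(star j * t) := by
  have h1 := congrArg star h.jt
  rw [star_mul, star_neg, star_mul, h.st] at h1
  exact h1

theorem Pr.tj (h : Pr a b t j) : t * j = -(j * t) := by rw [h.jt, neg_neg]

theorem pj_star (h : Pr a b t j) {u : D} (hu : star u = u) : star (Pj a b t j u) = Pj a b t j u := by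
  have e1 : star (algebraMap k D (a * b) * u) = algebraMap k D (a * b) * u := by
    rw [star_mul, hu, h.sk, Algebra.commutes]
  have e2 : star (algebraMap k D b * (t * u * t)) = algebraMap k D b * (t * u * t) := by
    rw [star_mul, star_mul, star_mul, hu, h.st, h.sk, Algebra.commutes, mul_assoc t u t]
  have e3 : star (algebraMap k D a * (star j * u * j)) = algebraMap k D a * (star j * u * j) := by
    rw [star_mul, star_mul, star_mul, hu, star_star, h.sk, Algebra.commutes]
    simp only [mul_assoc]
  have e4 : star (star j * t * u * (j * t)) = star j * t * u * (j * t) := by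
    rw [star_mul, star_mul, star_mul, star_mul, hu, star_star, h.st, h.tsj, h.tj]
    noncomm_ring
  rw [Pj, star_add, star_sub, star_add, e1, e2, e3, e4]

theorem pj_t (h : Pr a b t j) (u : D) : Pj a b t j u * t = t * Pj a b t j u := by
  obtain ⟨α, hα⟩ : ∃ α, α = algebraMap k D a := ⟨_, rfl⟩
  obtain ⟨β, hβ⟩ : ∃ β, β = algebraMap k D b := ⟨_, rfl⟩
  have cα : ∀ x : D, x * α = α * x := fun x => by rw [hα, Algebra.commutes]
  have cβ : ∀ x : D, x * β = β * x := fun x => by rw [hβ, Algebra.commutes]
  have htt := h.tt
  rw [← hα] at htt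
  have e2 : (β * (t * u * t)) * t = α * (β * (t * u)) := by
    calc _ = β * (t * u) * (t * t) := by simp only [mul_assoc]
      _ = _ := by rw [htt, cα]
  have e4 : (star j * t * u * (j * t)) * t = α * (star j * t * u * j) := by
    calc _ = star j * t * u * j * (t * t) := by simp only [mul_assoc]
      _ = _ := by rw [htt, cα]
  have f1 : t * (α * β * u) = α * β * (t * u) := by
    rw [← mul_assoc, ← mul_assoc, cα, mul_assoc α t β, cβ, ← mul_assoc, mul_assoc (α * β)]
  have f2 : t * (β * (t * u * t)) = α * (β * (u * t)) := by
    calc _ = t * β * (t * u * t) := by simp only [mul_assoc]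
      _ = β * (t * t) * (u * t) := by rw [cβ]; simp only [mul_assoc]
      _ = _ := by rw [htt, cα]; simp only [mul_assoc]
  have f3 : t * (α * (star j * u * j)) = -(α * (star j * t * u * j)) := by
    calc _ = t * α * (star j * u * j) := by simp only [mul_assoc]
      _ = α * (t * star j) * u * j := by rw [cα]; simp only [mul_assoc]
      _ = _ := by rw [h.tsj]; noncomm_ring
  have f4 : t * (star j * t * u * (j * t)) = -(α * (star j * u * (j * t))) := by
    calc _ = (t * star j) * t * u * (j * t) := by simp only [mul_assoc]
      _ = -(star j * (t * t) * u * (j * t)) := by rw [h.tsj]; noncomm_ring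
      _ = _ := by rw [htt, cα]; simp only [mul_assoc]
  rw [Pj, map_mul, ← hα, ← hβ, add_mul, sub_mul, add_mul, mul_add, mul_sub, mul_add, e2, e4, f1,
    f2, f3, f4]
  simp only [mul_assoc]
  abel

theorem pj_j (h : Pr a b t j) (u : D) : star j * Pj a b t j u = -(Pj a b t j u * j) := by
  obtain ⟨α, hα⟩ : ∃ α, α = algebraMap k D a := ⟨_, rfl⟩
  obtain ⟨β, hβ⟩ : ∃ β, β = algebraMap k D b := ⟨_, rfl⟩
  have cα : ∀ x : D, x * α = α * x := fun x => by rw [hα, Algebra.commutes]
  have cβ : ∀ x : D, x * β = β * x := fun x => by rw [hβ, Algebra.commutes]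
  have hjj := h.jj
  have hsjj := h.sjj
  rw [← hβ] at hjj hsjj
  have g1 : star j * (α * β * u) = α * β * (star j * u) := by
    rw [← mul_assoc, ← mul_assoc, cα, mul_assoc α _ β, cβ, ← mul_assoc, mul_assoc (α * β)]
  have g2 : star j * (β * (t * u * t)) = β * (star j * t * u * t) := by
    rw [← mul_assoc, cβ]; simp only [mul_assoc]
  have g3 : star j * (α * (star j * u * j)) = α * (β * (u * j)) := by
    calc _ = star j * α * (star j * u * j) := by simp only [mul_assoc]
      _ = α * (star j * star j) * (u * j) := by rw [cα]; simp only [mul_assoc]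
      _ = _ := by rw [hsjj]; simp only [mul_assoc]
  have g4 : star j * (star j * t * u * (j * t)) = β * (t * u * (j * t)) := by
    calc _ = (star j * star j) * (t * u * (j * t)) := by simp only [mul_assoc]
      _ = _ := by rw [hsjj]
  have h2 : (β * (t * u * t)) * j = -(β * (t * u * (j * t))) := by
    calc _ = β * (t * u * (t * j)) := by simp only [mul_assoc]
      _ = _ := by rw [h.tj]; noncomm_ring
  have h3 : (α * (star j * u * j)) * j = α * (β * (star j * u)) := by
    calc _ = α * (star j * u * (j * j)) := by simp only [mul_assoc]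
      _ = _ := by rw [hjj, cβ]
  have h4 : (star j * t * u * (j * t)) * j = -(β * (star j * t * u * t)) := by
    calc _ = star j * t * u * j * (t * j) := by simp only [mul_assoc]
      _ = -(star j * t * u * (j * j) * t) := by rw [h.tj]; noncomm_ring
      _ = _ := by rw [hjj, cβ]; simp only [mul_assoc]
  rw [Pj, map_mul, ← hα, ← hβ, add_mul, sub_mul, add_mul, mul_add, mul_sub, mul_add, h2, h3, h4,
    g1, g2, g3, g4]
  simp only [mul_assoc]
  abel

/-- The projection does not vanish. -/
theorem exists_pj_ne (hS : Setting k K D d s) [CharZero K] (h : Pr a b t j)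
    (htK : ∀ c : K, algebraMap K D c ≠ t) : ∃ u : D, star u = u ∧ Pj a b t j u ≠ 0 := by
  have := hS.cen
  have hD : CharZero D := charZero_of_injective_algebraMap (algebraMap K D).injective
  have hj0 : star j ≠ 0 := by
    intro h0
    have h1 := h.sjj
    rw [h0, mul_zero, eq_comm, map_eq_zero] at h1
    exact b.ne_zero h1
  by_contra hcon
  push Not at hcon
  have hs0 : algebraMap K D s ≠ 0 := by
    rw [Ne, map_eq_zero]
    exact hS.s_ne
  have hadd : ∀ u v, Pj a b t j (u + v) = Pj a b t j u + Pj a b t j v := by
    intro u v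
    simp only [Pj]
    noncomm_ring
  have hsm : ∀ (c : K) (u : D), Pj a b t j (algebraMap K D c * u) =
      algebraMap K D c * Pj a b t j u := by
    intro c u
    have hc : ∀ x : D, x * algebraMap K D c = algebraMap K D c * x := fun x => by
      rw [Algebra.commutes]
    obtain ⟨γ, hγ⟩ : ∃ γ, γ = algebraMap K D c := ⟨_, rfl⟩
    rw [← hγ] at hc ⊢
    simp only [Pj, mul_add, mul_sub]
    have e1 : ∀ x y : D, x * (γ * y) = γ * (x * y) := fun x y => by
      rw [← mul_assoc, hc, mul_assoc]
    rw [e1, e1 t u, mul_assoc γ (t * u) t, e1 _ (t * u * t), e1 (star j) u, mul_assoc γ _ j,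
      e1 _ (star j * u * j), e1 (star j * t) u, mul_assoc γ _ (j * t)]
  have hall : ∀ z : D, Pj a b t j z = 0 := by
    intro z
    have e1 := hcon (z + star z) (by rw [star_add, star_star, add_comm])
    have e2 := hcon (algebraMap K D s * (z - star z)) (by
      rw [star_mul, hS.star_alg, hS.star_s, map_neg, star_sub, star_star, mul_neg, ← neg_mul,
        neg_sub, Algebra.commutes])
    rw [hsm] at e2
    have e3 := (mul_eq_zero.mp e2).resolve_left hs0
    have e4 : Pj a b t j ((z + star z) + (z - star z)) = 0 := by rw [hadd, e1, e3, add_zero]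
    have e5 : (z + star z) + (z - star z) = algebraMap K D 2 * z := by
      rw [map_ofNat, two_mul]; abel
    rw [e5, hsm] at e4
    refine (mul_eq_zero.mp e4).resolve_left ?_
    rw [map_ofNat]
    exact two_ne_zero
  -- independence
  have hli : LinearIndependent K ![(1 : D), t, star j, star j * t] := by
    have key : ∀ u v : K, algebraMap K D u + algebraMap K D v * t = 0 → u = 0 ∧ v = 0 := by
      intro u v huv
      have hv : v = 0 := by
        by_contra hv
        apply htK (-(u / v))
        have hv' : algebraMap K D v ≠ 0 := by rwa [Ne, map_eq_zero]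
        apply mul_left_cancel₀ hv'
        rw [← map_mul, mul_neg, mul_div_cancel₀ _ hv, map_neg]
        exact (eq_neg_of_add_eq_zero_right huv).symm
      rw [hv, map_zero, zero_mul, add_zero, map_eq_zero] at huv
      exact ⟨huv, hv⟩
    rw [Fintype.linearIndependent_iff]
    intro g hg
    rw [Fin.sum_univ_four] at hg
    simp only [Matrix.cons_val_zero, Matrix.cons_val_one, Matrix.cons_val] at hg
    rw [Algebra.smul_def, Algebra.smul_def, Algebra.smul_def, Algebra.smul_def, mul_one] at hg
    obtain ⟨p, hp⟩ : ∃ p, p = algebraMap K D (g 0) + algebraMap K D (g 1) * t := ⟨_, rfl⟩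
    obtain ⟨q, hq⟩ : ∃ q, q = algebraMap K D (g 2) + algebraMap K D (g 3) * t := ⟨_, rfl⟩
    have h1 : p + star j * q = 0 := by
      rw [hp, hq, mul_add, ← mul_assoc, ← Algebra.commutes, ← Algebra.commutes (g 3), mul_assoc]
      rw [← hg]
      abel
    have hpt : p * t = t * p := by
      rw [hp, add_mul, mul_add, ← mul_assoc, ← Algebra.commutes (g 0) t,
        ← Algebra.commutes (g 1) t]
    have hqt : q * t = t * q := by
      rw [hq, add_mul, mul_add, ← mul_assoc, ← Algebra.commutes (g 2) t,
        ← Algebra.commutes (g 3) t]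
    have h2 : p - star j * q = 0 := by
      have ht0 : t ≠ 0 := by
        intro h0
        have h1 := h.tt
        rw [h0, mul_zero, eq_comm, map_eq_zero] at h1
        exact a.ne_zero h1
      have h3 : (p - star j * q) * t = t * (p + star j * q) := by
        rw [sub_mul, mul_add, hpt, mul_assoc, hqt, ← mul_assoc, ← mul_assoc, h.tsj]
        noncomm_ring
      rw [h1, mul_zero] at h3
      exact (mul_eq_zero.mp h3).resolve_right ht0
    have h4 : p = 0 := by
      have : (2 : D) * p = (p + star j * q) + (p - star j * q) := by noncomm_ring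
      rw [h1, h2, add_zero] at this
      exact (mul_eq_zero.mp this).resolve_left two_ne_zero
    have h5 : q = 0 := by
      rw [h4, zero_add] at h1
      exact (mul_eq_zero.mp h1).resolve_left hj0
    obtain ⟨g0, g1⟩ := key _ _ (hp ▸ h4)
    obtain ⟨g2, g3⟩ := key _ _ (hq ▸ h5)
    intro i
    fin_cases i
    · exact g0
    · exact g1
    · exact g2
    · exact g3
  have hsand := W.sandwich (K := K) _ hli Finset.univ
    ![algebraMap k D (a * b), algebraMap k D b * t, -(algebraMap k D a * j), j * t] (by
      intro z
      rw [Fin.sum_univ_four]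
      simp only [Matrix.cons_val_zero, Matrix.cons_val_one, Matrix.cons_val]
      rw [← hall z, Pj, one_mul, ← Algebra.commutes]
      have e1 : t * z * (algebraMap k D b * t) = algebraMap k D b * (t * z * t) := by
        rw [← mul_assoc, ← Algebra.commutes, mul_assoc]
      have e2 : star j * z * (-(algebraMap k D a * j)) = -(algebraMap k D a * (star j * z * j)) := by
        rw [mul_neg, ← mul_assoc (star j * z), ← Algebra.commutes, mul_assoc]
      rw [e1, e2]
      abel) 0 (Finset.mem_univ _)
  simp only [Matrix.cons_val_zero] at hsand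
  rw [map_eq_zero] at hsand
  exact mul_ne_zero a.ne_zero b.ne_zero hsand

end alg

end Vale.Agent.P011.Six.H183
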