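import Vale.Agent.P011.Six.H183.QNf

/-!
The local target: a hermitian form of given signature for which a given pair of matrices is
symmetric and antisymmetric.
-/

open Module Matrix

set_option linter.unusedSectionVars false

namespace Vale.Agent.P011.Six.H183

open Vale.Agent.P011.Tpl (Lor)
open Vale.Agent.P011.Tpl.H541

section target

variable {A X Y M0 S : Matrix I6 I6 ℂ} {q b : ℝ}

theorem j0_star : (J0)ᴴ = J0 := by
  rw [J0, fromBlocks_conjTranspose]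
  simp

theorem form_of (hS1 : S * X = (q : ℂ) • (J0 * S)) (hS2 : S * Y = N0 b * S)
    {E : Matrix (Fin 3) (Fin 3) ℂ} (hE : Eᴴ = E) {M : Matrix I6 I6 ℂ}
    (hM : M = Sᴴ * fromBlocks (-(b : ℂ) • E) 0 0 E * S) :
    Mᴴ = M ∧ M * X = Xᴴ * M ∧ M * Y = -(Yᴴ * M) := by
  obtain ⟨G, hG⟩ : ∃ G, G = fromBlocks (-(b : ℂ) • E) 0 0 E := ⟨_, rfl⟩
  rw [← hG] at hM
  have hGs : Gᴴ = G := by
    rw [hG, fromBlocks_conjTranspose, conjTranspose_smul, hE]
    simp
  have hGJ : G * J0 = J0 * G := by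
    rw [hG, J0, fromBlocks_multiply, fromBlocks_multiply]
    simp
  have hGN : G * N0 b = -((N0 b)ᴴ * G) := by
    rw [hG, N0, fromBlocks_conjTranspose, fromBlocks_multiply, fromBlocks_multiply,
      fromBlocks_neg, conjTranspose_smul]
    simp
  refine ⟨?_, ?_, ?_⟩
  · rw [hM, conjTranspose_mul, conjTranspose_mul, conjTranspose_conjTranspose, hGs, mul_assoc]
  · have h1 : Xᴴ * Sᴴ = (q : ℂ) • (Sᴴ * J0) := by
      rw [← conjTranspose_mul, hS1, conjTranspose_smul, conjTranspose_mul, j0_star]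
      congr 1
      exact Complex.conj_ofReal q
    rw [hM, mul_assoc, hS1, ← mul_assoc, ← mul_assoc, h1, mul_smul_comm, smul_mul_assoc,
      smul_mul_assoc]
    congr 1
    rw [mul_assoc Sᴴ G, ← mul_assoc G, hGJ]
    simp only [mul_assoc]
  · have h1 : Yᴴ * Sᴴ = Sᴴ * (N0 b)ᴴ := by
      rw [← conjTranspose_mul, hS2, conjTranspose_mul]
    rw [hM]
    calc Sᴴ * G * S * Y = Sᴴ * (G * N0 b) * S := by
          rw [mul_assoc _ S Y, hS2]; simp only [mul_assoc]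
      _ = -(Sᴴ * (N0 b)ᴴ * G * S) := by rw [hGN]; noncomm_ring
      _ = _ := by rw [← h1]; noncomm_ring

theorem sig_form (hS : IsUnit S) (hb : b ≠ 0) {E : Matrix (Fin 3) (Fin 3) ℂ} {p : ℕ}
    (hE : Sig E p) :
    Sig (Sᴴ * fromBlocks (-(b : ℂ) • E) 0 0 E * S) (if b < 0 then 2 * p else 3) := by
  have hp : p ≤ 3 := by
    have := hE.le
    rwa [Fintype.card_fin] at this
  have h1 : Sig (fromBlocks (-(b : ℂ) • E) 0 0 E) (if b < 0 then 2 * p else 3) := by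
    split_ifs with hb1
    · have h2 := (hE.smul (r := -b) (by linarith)).blocks hE
      rw [Complex.ofReal_neg] at h2
      rwa [two_mul]
    · have hb2 : 0 < b := lt_of_le_of_ne (not_lt.mp hb1) hb.symm
      have h2 := ((hE.smul hb2).neg).blocks hE
      rw [Fintype.card_fin, Nat.sub_add_cancel hp] at h2
      rwa [neg_smul]
  exact h1.congr hS.star (by rw [star_eq_conjTranspose, conjTranspose_conjTranspose])

/-- The forms for which the pair is symmetric and antisymmetric. -/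
theorem form_exists (hS : IsUnit S) (hq : q ≠ 0) (hS1 : S * X = (q : ℂ) • (J0 * S))
    (hS2 : S * Y = N0 b * S) (hM0 : M0ᴴ = M0) (u0 : IsUnit M0) (h1 : M0 * X = Xᴴ * M0)
    (h2 : M0 * Y = -(Yᴴ * M0)) :
    ∃ (E : Matrix (Fin 3) (Fin 3) ℂ) (p : ℕ), Sig E p ∧
      M0 = Sᴴ * fromBlocks (-(b : ℂ) • E) 0 0 E * S := by
  obtain ⟨⟨S, R, hSR, hRS⟩, rfl⟩ := hS
  simp only at hS1 hS2 ⊢
  have hq' : (q : ℂ) ≠ 0 := by exact_mod_cast hq
  have e1 : Sᴴ * Rᴴ = 1 := by rw [← conjTranspose_mul, hRS, conjTranspose_one]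
  have e2 : Rᴴ * Sᴴ = 1 := by rw [← conjTranspose_mul, hSR, conjTranspose_one]
  obtain ⟨G, hG⟩ : ∃ G, G = Rᴴ * M0 * R := ⟨_, rfl⟩
  have hMG : M0 = Sᴴ * G * S := by
    rw [hG]
    calc M0 = (Sᴴ * Rᴴ) * M0 * (R * S) := by rw [e1, hRS, one_mul, mul_one]
      _ = _ := by simp only [mul_assoc]
  have hGs : Gᴴ = G := by
    rw [hG, conjTranspose_mul, conjTranspose_mul, conjTranspose_conjTranspose, hM0, mul_assoc]
  have hGu : IsUnit G := by
    rw [hG]
    exact (IsUnit.mul ⟨⟨Rᴴ, Sᴴ, e2, e1⟩, rfl⟩ u0).mul ⟨⟨R, S, hRS, hSR⟩, rfl⟩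
  have hXR : X * R = (q : ℂ) • (R * J0) := by
    calc X * R = (R * S) * X * R := by rw [hRS, one_mul]
      _ = R * (S * X) * R := by simp only [mul_assoc]
      _ = (q : ℂ) • (R * J0 * (S * R)) := by
        rw [hS1, mul_smul_comm, smul_mul_assoc]; simp only [mul_assoc]
      _ = _ := by rw [hSR, mul_one]
  have hYR : Y * R = R * N0 b := by
    calc Y * R = (R * S) * Y * R := by rw [hRS, one_mul]
      _ = R * (S * Y) * R := by simp only [mul_assoc]
      _ = R * N0 b * (S * R) := by rw [hS2]; simp only [mul_assoc]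
      _ = _ := by rw [hSR, mul_one]
  have hGJ : G * J0 = J0 * G := by
    have h3 : (q : ℂ) • (G * J0) = (q : ℂ) • (J0 * G) := by
      calc (q : ℂ) • (G * J0) = Rᴴ * M0 * (X * R) := by
            rw [hXR, mul_smul_comm, hG]; simp only [mul_assoc]
        _ = Rᴴ * (M0 * X) * R := by simp only [mul_assoc]
        _ = (X * R)ᴴ * M0 * R := by rw [h1, conjTranspose_mul]; simp only [mul_assoc]
        _ = (q : ℂ) • (J0 * G) := by
          rw [hXR, conjTranspose_smul, conjTranspose_mul, j0_star, hG]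
          rw [show star (q : ℂ) = q from Complex.conj_ofReal q]
          rw [smul_mul_assoc, smul_mul_assoc]
          simp only [mul_assoc]
    exact smul_right_injective _ hq' h3
  have hGN : G * N0 b = -((N0 b)ᴴ * G) := by
    calc G * N0 b = Rᴴ * M0 * (Y * R) := by rw [hYR, hG]; simp only [mul_assoc]
      _ = Rᴴ * (M0 * Y) * R := by simp only [mul_assoc]
      _ = -((Y * R)ᴴ * M0 * R) := by rw [h2, conjTranspose_mul]; noncomm_ring
      _ = _ := by rw [hYR, conjTranspose_mul, hG]; simp only [mul_assoc]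
  obtain ⟨B, C, D, E, hbl⟩ : ∃ B C D E, G = fromBlocks B C D E :=
    ⟨_, _, _, _, (fromBlocks_toBlocks G).symm⟩
  rw [hbl, J0, fromBlocks_multiply, fromBlocks_multiply, fromBlocks_inj] at hGJ
  simp only [one_mul, zero_mul, add_zero, mul_one, mul_zero, neg_mul, zero_add, mul_neg] at hGJ
  obtain ⟨-, h3, h4, -⟩ := hGJ
  have hC0 : C = 0 := mat_zero h3.symm
  have hD0 : D = 0 := mat_zero h4
  rw [hC0, hD0] at hbl
  rw [hbl, N0, fromBlocks_conjTranspose, fromBlocks_multiply, fromBlocks_multiply, fromBlocks_neg,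
    conjTranspose_smul, fromBlocks_inj] at hGN
  simp only [mul_zero, zero_mul, add_zero, mul_one, zero_add, conjTranspose_zero,
    conjTranspose_one] at hGN
  obtain ⟨-, h5, -, -⟩ := hGN
  have hB : B = -(b : ℂ) • E := by
    rw [h5, smul_mul_assoc, one_mul, neg_smul]
    congr 2
    exact Complex.conj_ofReal b
  rw [hB] at hbl
  have hEs : Eᴴ = E := by
    rw [hbl, fromBlocks_conjTranspose, fromBlocks_inj] at hGs
    exact hGs.2.2.2
  have hEu : IsUnit E := by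
    rw [Matrix.isUnit_iff_isUnit_det] at hGu ⊢
    rw [hbl, Matrix.det_fromBlocks_zero₂₁] at hGu
    exact isUnit_of_mul_isUnit_right hGu
  obtain ⟨p, hp⟩ := sig_exists hEs hEu
  exact ⟨E, p, hp, by rw [hMG, hbl]⟩

theorem exists_sig3 {p : ℕ} (hp : p ≤ 3) : ∃ E : Matrix (Fin 3) (Fin 3) ℂ, Sig E p := by
  interval_cases p
  · exact ⟨_, sig_sd ![-1, -1, -1]⟩
  · exact ⟨_, sig_sd ![1, -1, -1]⟩
  · exact ⟨_, sig_sd ![1, 1, -1]⟩
  · exact ⟨_, sig_sd ![1, 1, 1]⟩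

theorem target_blocks {p : ℕ} (hA : Sig A p) (hp1 : p ≠ 1) (hp5 : p ≠ 5) (hq : 0 < q)
    (hb : b ≠ 0) (hX : X * X = ((q : ℂ) * q) • 1) (hY : Y * Y = (b : ℂ) • 1)
    (hXY : X * Y = -(Y * X)) (hM0 : M0ᴴ = M0) (u0 : IsUnit M0) (h1 : M0 * X = Xᴴ * M0)
    (h2 : M0 * Y = -(Yᴴ * M0)) {r : ℝ} (hr : 0 < r) (hdet : A.det * M0.det = (r : ℂ)) :
    ∃ M : Matrix I6 I6 ℂ, Mᴴ = M ∧ M * X = Xᴴ * M ∧ M * Y = -(Yᴴ * M) ∧ Sig M p := by
  obtain ⟨S, hS, hS1, hS2⟩ := normal_form hq hb hX hY hXY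
  obtain ⟨E0, p0, hE0, hM0E⟩ := form_exists hS hq.ne' hS1 hS2 hM0 u0 h1 h2
  have h3 := sig_form hS hb hE0
  rw [← hM0E] at h3
  have h4 := sig_parity hA h3 hr hdet
  have hcard : Fintype.card I6 = 6 := rfl
  have hp6 : p ≤ 6 := hA.le
  have hp0 : p0 ≤ 3 := by
    have := hE0.le
    rwa [Fintype.card_fin] at this
  rw [hcard] at h4
  obtain ⟨p', hp', hpp⟩ : ∃ p' : ℕ, p' ≤ 3 ∧ p = if b < 0 then 2 * p' else 3 := by
    split_ifs at h4 ⊢ with hb1
    · refine ⟨p / 2, by omega, ?_⟩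
      rw [Nat.even_iff] at h4
      omega
    · refine ⟨0, by omega, ?_⟩
      rw [Nat.even_iff] at h4
      omega
  obtain ⟨E, hE⟩ := exists_sig3 hp'
  obtain ⟨e1, e2, e3⟩ := form_of hS1 hS2 (E := E) hE.isHermitian rfl
  exact ⟨_, e1, e2, e3, by rw [hpp]; exact sig_form hS hb hE⟩

end target

/-- **The local target.** -/
theorem target_six {A X Y M0 : Matrix (Fin 6) (Fin 6) ℂ} {q b : ℝ} (hA : Aᴴ = A)
    (uA : IsUnit A) (hL : ¬ Lor A) (hq : 0 < q) (hb : b ≠ 0) (hX : X * X = ((q : ℂ) * q) • 1)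
    (hY : Y * Y = (b : ℂ) • 1) (hXY : X * Y = -(Y * X)) (hM0 : M0ᴴ = M0) (u0 : IsUnit M0)
    (h1 : M0 * X = Xᴴ * M0) (h2 : M0 * Y = -(Yᴴ * M0)) {r : ℝ} (hr : 0 < r)
    (hdet : A.det * M0.det = (r : ℂ)) :
    ∃ M Q : Matrix (Fin 6) (Fin 6) ℂ, Mᴴ = M ∧ M * X = Xᴴ * M ∧ M * Y = -(Yᴴ * M) ∧
      IsUnit Q ∧ Q * A * Qᴴ = M := by
  obtain ⟨p, hp⟩ := sig_exists hA uA
  have hp1 : p ≠ 1 := fun h => hL (lor_of_sig (by norm_num) hp (Or.inl h))
  have hp5 : p ≠ 5 := fun h => hL (lor_of_sig (by norm_num) hp (Or.inr h))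
  let e : I6 ≃ Fin 6 := finSumFinEquiv
  have hsm : ∀ B C : Matrix (Fin 6) (Fin 6) ℂ, (B * C).submatrix e e =
      B.submatrix e e * C.submatrix e e := fun B C => (Matrix.submatrix_mul_equiv B C e e e).symm
  have hst : ∀ B : Matrix (Fin 6) (Fin 6) ℂ, (B.submatrix e e)ᴴ = Bᴴ.submatrix e e := fun B =>
    Matrix.conjTranspose_submatrix _ _ _
  have hsc : ∀ c : ℂ, ((c • (1 : Matrix (Fin 6) (Fin 6) ℂ)).submatrix e e) = c • 1 := by
    intro c
    change c • ((1 : Matrix (Fin 6) (Fin 6) ℂ).submatrix e e) = c • 1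
    rw [Matrix.submatrix_one_equiv]
  have hneg : ∀ B : Matrix (Fin 6) (Fin 6) ℂ, (-B).submatrix e e = -(B.submatrix e e) :=
    fun _ => rfl
  have hu : ∀ B : Matrix (Fin 6) (Fin 6) ℂ, IsUnit B → IsUnit (B.submatrix e e) := by
    rintro _ ⟨⟨B, C, hBC, hCB⟩, rfl⟩
    refine ⟨⟨B.submatrix e e, C.submatrix e e, ?_, ?_⟩, rfl⟩
    · rw [← hsm, hBC, Matrix.submatrix_one_equiv]
    · rw [← hsm, hCB, Matrix.submatrix_one_equiv]
  obtain ⟨M, hM1, hM2, hM3, hM4⟩ := target_blocks (X := X.submatrix e e) (Y := Y.submatrix e e)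
    (M0 := M0.submatrix e e) (hp.reindex e) hp1 hp5 hq hb
    (by rw [← hsm, hX, hsc]) (by rw [← hsm, hY, hsc])
    (by rw [← hsm, hXY, hneg, hsm]) (by rw [hst, hM0]) (hu _ u0)
    (by rw [← hsm, h1, hsm, hst]) (by rw [← hsm, h2, hst, hneg, hsm]) hr
    (by rw [Matrix.det_submatrix_equiv_self, Matrix.det_submatrix_equiv_self]; exact hdet)
  obtain ⟨N, hN⟩ : ∃ N : Matrix (Fin 6) (Fin 6) ℂ, M = N.submatrix e e := by
    refine ⟨M.submatrix e.symm e.symm, ?_⟩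
    rw [Matrix.submatrix_submatrix]
    simp
  have hinj : ∀ B C : Matrix (Fin 6) (Fin 6) ℂ, B.submatrix e e = C.submatrix e e → B = C := by
    intro B C h
    have h1 := congrArg (fun Z : Matrix I6 I6 ℂ => Z.submatrix e.symm e.symm) h
    simpa [Matrix.submatrix_submatrix] using h1
  rw [hN] at hM1 hM2 hM3 hM4
  have hN4 : Sig N p := by
    have h3 := hM4.reindex e.symm
    simpa [Matrix.submatrix_submatrix] using h3
  obtain ⟨Q, hQ, hQN⟩ := hp.cong hN4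
  refine ⟨N, Q, hinj _ _ (by rw [← hst, hM1]), hinj _ _ (by rw [hsm, hsm, ← hst, hM2]),
    hinj _ _ ?_, hQ, hQN⟩
  rw [hsm, hM3, hneg, hst, hsm]

end Vale.Agent.P011.Six.H183
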